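import Vale.Agent.P040.H198.SlotGP
import Vale.Agent.P040.H252.LoopStatic

/-!
# Harary–Hill for even `n` from potentials on spine stars

`hh_top`: potentials on spine stars with the pair inequality, which agree on similar slot stars and
which have real lifts along the loop of slots of every vertex, give `p (p-1)^2 (p-2) ≤ C.total`.
-/

set_option autoImplicit false

namespace Vale.Agent.P040.Slot

open Topo HH Finset

variable {n : ℕ} (C : CompDiag n)

/-! ### ranks of arms -/

/-- the number of arms before the arm `x` in the rotation at `b` -/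
noncomputable def rk (b x : Fin n) : ℕ :=
  (univ.filter fun y => y ≠ b ∧ ang C b y < ang C b x).card

theorem rk_lt {b x y : Fin n} (hx : x ≠ b) (h : ang C b x < ang C b y) : rk C b x < rk C b y := by
  unfold rk
  apply card_lt_card
  rw [ssubset_iff_of_subset]
  · exact ⟨x, by simp [hx, h], by simp⟩
  · intro z hz
    simp only [mem_filter, mem_univ, true_and] at hz ⊢
    exact ⟨hz.1, hz.2.trans h⟩

theorem rk_inj {b x y : Fin n} (hx : x ≠ b) (hy : y ≠ b) (h : rk C b x = rk C b y) : x = y := by
  rcases lt_trichotomy (ang C b x) (ang C b y) with h1 | h1 | h1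
  · exact absurd h (rk_lt C hx h1).ne
  · exact ang_inj C hx.symm hy.symm h1
  · exact absurd h (rk_lt C hy h1).ne'

theorem rk_lt_iff {b x y : Fin n} (hx : x ≠ b) (hy : y ≠ b) :
    rk C b x < rk C b y ↔ ang C b x < ang C b y := by
  constructor
  · intro h
    by_contra hle
    rcases (not_lt.1 hle).eq_or_lt with h1 | h1
    · rw [ang_inj C hy.symm hx.symm h1] at h
      exact lt_irrefl _ h
    · exact absurd (rk_lt C hy h1) h.not_gt
  · exact rk_lt C hx

theorem rk_bound {b x : Fin n} (hx : x ≠ b) : rk C b x < n - 1 := by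
  have h1 : (univ.filter fun y : Fin n => y ≠ b).card = n - 1 := by
    rw [filter_ne', card_erase_of_mem (mem_univ _), card_univ, Fintype.card_fin]
  rw [← h1]
  unfold rk
  apply card_lt_card
  rw [ssubset_iff_of_subset]
  · exact ⟨x, by simp [hx], by simp⟩
  · intro z hz
    simp only [mem_filter, mem_univ, true_and] at hz ⊢
    exact hz.1

/-- the arms at `b` are numbered by their ranks -/
noncomputable def rkE (b : Fin n) : {x : Fin n // x ≠ b} ≃ Fin (n - 1) :=
  Equiv.ofBijective (fun x => ⟨rk C b x.1, rk_bound C x.2⟩) (by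
    rw [Fintype.bijective_iff_injective_and_card]
    constructor
    · intro x y h
      rw [Fin.mk.injEq] at h
      exact Subtype.ext (rk_inj C x.2 y.2 h)
    · rw [Fintype.card_subtype_compl, Fintype.card_fin, Fintype.card_fin]
      simp)

theorem rkE_apply {b : Fin n} (x : {x : Fin n // x ≠ b}) : ((rkE C b x : Fin (n - 1)) : ℕ) =
    rk C b x.1 := rfl

/-- the arms at `b` in the order of the rotation -/
noncomputable def rl (b : Fin n) : List (Fin n) :=
  List.ofFn fun i : Fin (n - 1) => ((rkE C b).symm i).1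

theorem rl_length (b : Fin n) : (rl C b).length = n - 1 := by
  unfold rl
  simp

theorem rl_nodup (b : Fin n) : (rl C b).Nodup := by
  unfold rl
  rw [List.nodup_ofFn]
  intro i j h
  exact (rkE C b).symm.injective (Subtype.ext h)

theorem rl_get {b : Fin n} {i : ℕ} (hi : i < (rl C b).length) :
    (rl C b)[i] ≠ b ∧ rk C b (rl C b)[i] = i := by
  have hi' : i < n - 1 := by rwa [rl_length] at hi
  have e : (rl C b)[i] = ((rkE C b).symm ⟨i, hi'⟩).1 := by
    simp only [rl, List.getElem_ofFn]
  rw [e]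
  refine ⟨((rkE C b).symm ⟨i, hi'⟩).2, ?_⟩
  rw [← rkE_apply, Equiv.apply_symm_apply]

theorem rl_rk {b x : Fin n} (hx : x ≠ b) :
    (rl C b)[rk C b x]'(by rw [rl_length]; exact rk_bound C hx) = x := by
  apply rk_inj C (rl_get C _).1 hx
  exact (rl_get C _).2

theorem mem_rl {b x : Fin n} : x ∈ rl C b ↔ x ≠ b := by
  constructor
  · intro h
    rw [List.mem_iff_getElem] at h
    obtain ⟨i, hi, rfl⟩ := h
    exact (rl_get C hi).1
  · intro h
    rw [List.mem_iff_getElem]
    exact ⟨rk C b x, by rw [rl_length]; exact rk_bound C h, rl_rk C h⟩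

/-- the rotation at `b` -/
noncomputable def rho (b : Fin n) : Equiv.Perm (Fin n) := (rl C b).formPerm

theorem rho_self (b : Fin n) : rho C b b = b := by
  unfold rho
  apply List.formPerm_apply_of_notMem
  rw [mem_rl]
  simp

theorem rho_lt {b x : Fin n} (hx : x ≠ b) (h : rk C b x + 1 < n - 1) :
    rho C b x ≠ b ∧ rk C b (rho C b x) = rk C b x + 1 := by
  have h1 := List.formPerm_apply_lt_getElem (rl C b) (rl_nodup C b) (rk C b x)
    (by rw [rl_length]; exact h)
  rw [rl_rk C hx] at h1
  unfold rho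
  rw [h1]
  exact rl_get C _

theorem rho_last {b x : Fin n} (hx : x ≠ b) (h : rk C b x + 1 = n - 1) :
    rho C b x ≠ b ∧ rk C b (rho C b x) = 0 := by
  have h0 : 0 < (rl C b).length := by rw [rl_length]; omega
  have h1 := List.formPerm_apply_getElem (rl C b) (rl_nodup C b) (rk C b x)
    (by rw [rl_length]; omega)
  rw [rl_rk C hx] at h1
  unfold rho
  rw [h1]
  have h2 := rl_get C (b := b) (i := (rk C b x + 1) % (rl C b).length) (Nat.mod_lt _ h0)
  have h3 : (rk C b x + 1) % (rl C b).length = 0 := by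
    rw [rl_length, h, Nat.mod_self]
  refine ⟨h2.1, ?_⟩
  rw [h2.2, h3]

theorem rho_cycle (hn : 3 ≤ n) {b x y : Fin n} (hx : x ≠ b) (hy : y ≠ b) :
    (rho C b).SameCycle x y := by
  have h2 : 2 ≤ (rl C b).length := by rw [rl_length]; omega
  have hc := List.isCycle_formPerm (rl_nodup C b) h2
  have hs : ∀ z, z ≠ b → rho C b z ≠ z := by
    intro z hz
    have hzl : z ∈ rl C b := (mem_rl C).2 hz
    unfold rho
    exact (List.formPerm_apply_mem_ne_self_iff _ (rl_nodup C b) z hzl).2 h2
  exact hc.sameCycle (hs x hx) (hs y hy)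

/-! ### the slots of a vertex -/

/-- the slot with the first `q` arms before it -/
noncomputable def cutS (b : Fin n) (q : ℕ) : Slt C b :=
  { B := {x | rk C b x < q}
    sg := fun _ => 0
    lower := by
      intro x y hx hy h hle
      have h' : rk C b y < q := h
      show rk C b x < q
      refine lt_of_le_of_lt ?_ h'
      rcases hle.eq_or_lt with h1 | h1
      · rw [ang_inj C hx.symm hy.symm h1]
      · exact (rk_lt C hx h1).le
    sg_mem := fun _ => Or.inl rfl }

theorem lane_sim_after {b k : Fin n} (hbk : b ≠ k) :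
    (lane C hbk 1 (Or.inl rfl)).Sim (cutS C b (rk C b k + 1)) := by
  intro x hx
  unfold Slt.wr
  have h : x ∈ (lane C hbk 1 (Or.inl rfl)).B ↔ x ∈ (cutS C b (rk C b k + 1)).B := by
    rw [lane_mem]
    show _ ↔ rk C b x < rk C b k + 1
    rw [Nat.lt_succ_iff_lt_or_eq, rk_lt_iff C hx hbk.symm]
    constructor
    · rintro (h | h)
      · exact Or.inl h
      · exact Or.inr (by rw [h.1])
    · rintro (h | h)
      · exact Or.inl h
      · exact Or.inr ⟨rk_inj C hx hbk.symm h, rfl⟩
  rw [h]

theorem lane_sim_before {b k : Fin n} (hbk : b ≠ k) :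
    (lane C hbk (-1) (Or.inr rfl)).Sim (cutS C b (rk C b k)) := by
  intro x hx
  unfold Slt.wr
  have h : x ∈ (lane C hbk (-1) (Or.inr rfl)).B ↔ x ∈ (cutS C b (rk C b k)).B := by
    rw [lane_mem]
    show _ ↔ rk C b x < rk C b k
    rw [rk_lt_iff C hx hbk.symm]
    constructor
    · rintro (h | h)
      · exact h
      · norm_num at h
    · intro h
      exact Or.inl h
  rw [h]

/-! ### symmetry of the crossing numbers -/

theorem cr_comm (A B : Arm) : A.cr B = B.cr A := by
  classical
  unfold Arm.cr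
  refine Finset.card_bij' (fun q _ => (q.2, q.1)) (fun q _ => (q.2, q.1)) ?_ ?_
    (fun _ _ => rfl) (fun _ _ => rfl)
  · rintro ⟨i, j⟩ h
    simp only [mem_filter, mem_product, mem_range] at h ⊢
    refine ⟨⟨h.1.2, h.1.1⟩, h.2.1.symm, ?_⟩
    have := h.2.2
    rw [inter_iff] at this ⊢
    rwa [LI_comm]
  · rintro ⟨i, j⟩ h
    simp only [mem_filter, mem_product, mem_range] at h ⊢
    refine ⟨⟨h.1.2, h.1.1⟩, h.2.1.symm, ?_⟩
    have := h.2.2
    rw [inter_iff] at this ⊢
    rwa [LI_comm]

theorem ccr_comm (b k : Fin n) : C.cr b k = C.cr k b := by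
  unfold CompDiag.cr
  rw [sum_comm]
  apply sum_congr rfl
  intro y _
  apply sum_congr rfl
  intro x _
  rw [cr_comm]
  have : (x ≠ b ∧ x ≠ k ∧ y ≠ b ∧ y ≠ k ∧ x ≠ y) ↔ (y ≠ k ∧ y ≠ b ∧ x ≠ k ∧ x ≠ b ∧ y ≠ x) := by
    constructor
    · rintro ⟨h1, h2, h3, h4, h5⟩
      exact ⟨h4, h3, h2, h1, h5.symm⟩
    · rintro ⟨h1, h2, h3, h4, h5⟩
      exact ⟨h4, h3, h2, h1, h5.symm⟩
  simp only [this]

theorem sum_pairs : ∑ b, ∑ k ∈ univ.filter (fun k => k ≠ b), C.cr b k = 2 * C.total := by
  classical
  have h1 : ∀ b : Fin n, ∑ k ∈ univ.filter (fun k => k ≠ b), C.cr b k =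
      ∑ k ∈ univ.filter (fun k => b < k), C.cr b k +
      ∑ k ∈ univ.filter (fun k => k < b), C.cr b k := by
    intro b
    rw [← sum_union]
    · apply sum_congr _ fun _ _ => rfl
      ext k
      simp only [mem_filter, mem_univ, true_and, mem_union]
      constructor
      · intro h
        rcases lt_or_gt_of_ne h with h | h
        · exact Or.inr h
        · exact Or.inl h
      · rintro (h | h)
        · exact h.ne'
        · exact h.ne
    · rw [disjoint_left]
      intro k hk hk'
      simp only [mem_filter, mem_univ, true_and] at hk hk'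
      exact absurd hk' hk.not_gt
  have h2 : ∑ b, ∑ k ∈ univ.filter (fun k => k < b), C.cr b k = C.total := by
    unfold CompDiag.total
    simp only [sum_filter]
    rw [sum_comm]
    apply sum_congr rfl
    intro b _
    apply sum_congr rfl
    intro k _
    rw [ccr_comm]
  simp only [h1]
  rw [sum_add_distrib, h2]
  show C.total + C.total = _
  ring

/-! ### the theorem -/

theorem hh_top {p : ℕ} (hp : 3 ≤ p) (C : CompDiag (2 * p)) {ε : ℝ} (hε : GoodE C ε)
    (F : Bp.SStar C.pos → Fin (2 * p) → ℝ)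
    (hpair : ∀ b k : Bp.SStar C.pos, b.GP k → ∃ q : Fin (2 * p) → ℤ,
      ∑ z, |F b z - F k z - ((p : ℝ) - 1) / 2 - ((p : ℝ) - 1) * q z| ≤ b.cr k)
    (hsim : ∀ (b : Fin (2 * p)) (S S' : Slt C b), S.Sim S' → ∀ z, ∃ i : ℤ,
      F (S.star hε) z = F (S'.star hε) z + ((p : ℝ) - 1) * i)
    (hloop : ∀ b, ∃ W : ℕ → Fin (2 * p) → ℝ,
      (∀ q ≤ 2 * p - 1, ∀ z, ∃ i : ℤ,
        F ((cutS C b q).star hε) z = W q z + ((p : ℝ) - 1) * i) ∧
      (∀ q < 2 * p - 1, ∑ z, |W (q + 1) z - W q z| ≤ 1) ∧
      (∀ z, ∃ i : ℤ, W (2 * p - 1) z = W 0 z + ((p : ℝ) - 1) * i) ∧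
      W (2 * p - 1) b ≠ W 0 b) :
    p * (p - 1) ^ 2 * (p - 2) ≤ C.total := by
  classical
  choose W hW1 hW2 hW3 hW4 using hloop
  set M : Fin (2 * p) → Fin (2 * p) → Fin (2 * p) → ℝ := fun z b k => W b (rk C b k) z with hM
  set P : Fin (2 * p) → Fin (2 * p) → Fin (2 * p) → ℝ := fun z b k => M z b (rho C b k) with hP
  set D : Fin (2 * p) → Fin (2 * p) → Fin (2 * p) → ℝ :=
    fun z b k => W b (rk C b k + 1) z - W b (rk C b k) z with hD
  -- P agrees with the potential after the arm
  have hPW : ∀ z b k, k ≠ b → ∃ i : ℤ, P z b k = W b (rk C b k + 1) z + ((p : ℝ) - 1) * i := by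
    intro z b k hk
    rcases Nat.lt_or_ge (rk C b k + 1) (2 * p - 1) with h | h
    · refine ⟨0, ?_⟩
      simp only [hP, hM, (rho_lt C hk h).2]
      simp
    · have h' : rk C b k + 1 = 2 * p - 1 := by
        have := rk_bound C hk
        omega
      obtain ⟨i, hi⟩ := hW3 b z
      refine ⟨-i, ?_⟩
      simp only [hP, hM, (rho_last C hk h').2, h', hi]
      push_cast
      ring
  have key := H252.loop_static hp (by simp) (rho C) (rho_self C)
    (fun b k k' hk hk' => rho_cycle C (by omega) hk hk') P M D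
    (fun z b k _ => rfl)
    (by
      intro z b k hk
      obtain ⟨i, hi⟩ := hPW z b k hk
      refine ⟨i, ?_⟩
      rw [hi]
      simp only [hM, hD]
      ring)
    (by
      intro b k hk
      exact hW2 b _ (rk_bound C hk))
    (by
      intro z
      have h1 : ∑ k ∈ univ.filter (fun k => k ≠ z), D z z k =
          ∑ q ∈ range (2 * p - 1), (W z (q + 1) z - W z q z) := by
        apply sum_bij (fun k _ => rk C z k)
        · intro k hk
          simp only [mem_filter, mem_univ, true_and] at hk
          rw [mem_range]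
          exact rk_bound C hk
        · intro k hk k' hk' h
          simp only [mem_filter, mem_univ, true_and] at hk hk'
          exact rk_inj C hk hk' h
        · intro q hq
          rw [mem_range] at hq
          have hq' : q < (rl C z).length := by rw [rl_length]; exact hq
          exact ⟨(rl C z)[q], by simpa using (rl_get C hq').1, (rl_get C hq').2⟩
        · intro k _
          rfl
      rw [h1, sum_range_sub (fun q => W z q z)]
      exact sub_ne_zero.2 (hW4 z))
    (fun b k => (C.cr b k : ℝ))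
    (by
      intro b k hk
      obtain ⟨q, hq⟩ := hpair _ _ (lane_gp hk.symm hk (Or.inl rfl) hε)
      have e1 : ∀ z, ∃ i : ℤ, F ((lane C hk.symm 1 (Or.inl rfl)).star hε) z =
          P z b k + ((p : ℝ) - 1) * i := by
        intro z
        obtain ⟨i1, h1⟩ := hsim b _ _ (lane_sim_after C hk.symm) z
        obtain ⟨i2, h2⟩ := hW1 b (rk C b k + 1) (by have := rk_bound C hk; omega) z
        obtain ⟨i3, h3⟩ := hPW z b k hk
        refine ⟨i1 + i2 - i3, ?_⟩
        rw [h1, h2, h3]
        push_cast
        ring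
      have e2 : ∀ z, ∃ i : ℤ, F ((lane C hk 1 (Or.inl rfl)).star hε) z =
          P z k b + ((p : ℝ) - 1) * i := by
        intro z
        obtain ⟨i1, h1⟩ := hsim k _ _ (lane_sim_after C hk) z
        obtain ⟨i2, h2⟩ := hW1 k (rk C k b + 1) (by have := rk_bound C hk.symm; omega) z
        obtain ⟨i3, h3⟩ := hPW z k b hk.symm
        refine ⟨i1 + i2 - i3, ?_⟩
        rw [h1, h2, h3]
        push_cast
        ring
      choose i1 hi1 using e1
      choose i2 hi2 using e2
      refine ⟨fun z => q z - i1 z + i2 z, ?_⟩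
      have hle : ((((lane C hk.symm 1 (Or.inl rfl)).star hε).cr
          ((lane C hk 1 (Or.inl rfl)).star hε) : ℕ) : ℝ) ≤ (C.cr b k : ℝ) := by
        exact_mod_cast lane_cr hk.symm hk (Or.inl rfl) hε
      refine le_trans (le_of_eq ?_) (hq.trans hle)
      apply sum_congr rfl
      intro z _
      rw [hi1 z, hi2 z]
      congr 1
      push_cast
      ring)
    (by
      intro b k hk
      obtain ⟨q, hq⟩ := hpair _ _ (lane_gp hk.symm hk (Or.inr rfl) hε)
      have e1 : ∀ z, ∃ i : ℤ, F ((lane C hk.symm (-1) (Or.inr rfl)).star hε) z =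
          M z b k + ((p : ℝ) - 1) * i := by
        intro z
        obtain ⟨i1, h1⟩ := hsim b _ _ (lane_sim_before C hk.symm) z
        obtain ⟨i2, h2⟩ := hW1 b (rk C b k) (by have := rk_bound C hk; omega) z
        refine ⟨i1 + i2, ?_⟩
        rw [h1, h2]
        simp only [hM]
        push_cast
        ring
      have e2 : ∀ z, ∃ i : ℤ, F ((lane C hk (-1) (Or.inr rfl)).star hε) z =
          M z k b + ((p : ℝ) - 1) * i := by
        intro z
        obtain ⟨i1, h1⟩ := hsim k _ _ (lane_sim_before C hk) z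
        obtain ⟨i2, h2⟩ := hW1 k (rk C k b) (by have := rk_bound C hk.symm; omega) z
        refine ⟨i1 + i2, ?_⟩
        rw [h1, h2]
        simp only [hM]
        push_cast
        ring
      choose i1 hi1 using e1
      choose i2 hi2 using e2
      refine ⟨fun z => q z - i1 z + i2 z, ?_⟩
      have hle : ((((lane C hk.symm (-1) (Or.inr rfl)).star hε).cr
          ((lane C hk (-1) (Or.inr rfl)).star hε) : ℕ) : ℝ) ≤ (C.cr b k : ℝ) := by
        exact_mod_cast lane_cr hk.symm hk (Or.inr rfl) hε
      refine le_trans (le_of_eq ?_) (hq.trans hle)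
      apply sum_congr rfl
      intro z _
      rw [hi1 z, hi2 z]
      congr 1
      push_cast
      ring)
  have h1 := sum_pairs C
  have h2 : (∑ b, ∑ k ∈ univ.filter (fun k => k ≠ b), (C.cr b k : ℝ)) = 2 * (C.total : ℝ) := by
    exact_mod_cast h1
  rw [h2] at key
  have h3 : ((p * (p - 1) ^ 2 * (p - 2) : ℕ) : ℝ) ≤ (C.total : ℝ) := by
    push_cast [Nat.cast_sub (show 1 ≤ p by omega), Nat.cast_sub (show 2 ≤ p by omega)]
    linarith
  exact_mod_cast h3

end Vale.Agent.P040.Slot
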