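import Vale.Agent.P040.Drawing
import Vale.Agent.P040.DrawingLemmas

/-!
# Arc diagrams

A drawing of `K_{m,n}` in which all vertices lie on a line (the spine) and every edge meets the
spine in finitely many points is described by finite data: the points of every edge on the spine,
in the order of the edge, and the page (upper or lower half-plane) of its first piece.
-/

namespace Vale.Agent.P040.Topo

/-- The pairs of reals `a, b` and `c, d` interleave. -/
def Inter (a b c d : ℝ) : Prop :=
  (min a b < min c d ∧ min c d < max a b ∧ max a b < max c d) ∨
  (min c d < min a b ∧ min a b < max c d ∧ max c d < max a b)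

/-- An arm: it visits the points `p 0, …, p len` of the spine; piece `j < len` joins `p j` and
`p (j + 1)` in the page `page j` (`true` is the upper half-plane). -/
structure Arm where
  len : ℕ
  len_pos : 0 < len
  p : ℕ → ℝ
  up : Bool

namespace Arm

/-- The page of piece `j`. -/
def page (A : Arm) (j : ℕ) : Bool := if Even j then A.up else !A.up

/-- Piece `i` of `A` and piece `j` of `B` interleave in the same page. -/
def Hit (A B : Arm) (i j : ℕ) : Prop :=
  A.page i = B.page j ∧ Inter (A.p i) (A.p (i + 1)) (B.p j) (B.p (j + 1))

open Classical in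
/-- The number of interleaving pairs of pieces. -/
noncomputable def cr (A B : Arm) : ℕ :=
  ((Finset.range A.len ×ˢ Finset.range B.len).filter fun q => A.Hit B q.1 q.2).card

end Arm

/-- An arc diagram of `K_{m,n}`: leaves `Fin m`, centres `Fin n`; `arm x b` goes from the centre
`b` to the leaf `x`. -/
structure ArcDiagram (m n : ℕ) where
  leaf : Fin m → ℝ
  ctr : Fin n → ℝ
  arm : Fin m → Fin n → Arm
  leaf_inj : Function.Injective leaf
  ctr_inj : Function.Injective ctr
  leaf_ne : ∀ x b, leaf x ≠ ctr b
  arm_zero : ∀ x b, (arm x b).p 0 = ctr b
  arm_last : ∀ x b, (arm x b).p (arm x b).len = leaf x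
  /-- the points on the spine are distinct, except for the common vertices -/
  inj : ∀ x b i y k j, i ≤ (arm x b).len → j ≤ (arm y k).len → (arm x b).p i = (arm y k).p j →
    (x = y ∧ b = k ∧ i = j) ∨ (b = k ∧ i = 0 ∧ j = 0) ∨
      (x = y ∧ i = (arm x b).len ∧ j = (arm y k).len)
  /-- pieces of one arm, of one star or of two arms at the same leaf do not interleave -/
  nc : ∀ x b i y k j, (x = y ∨ b = k) → i < (arm x b).len → j < (arm y k).len →
    ¬ (arm x b).Hit (arm y k) i j

namespace ArcDiagram

variable {m n : ℕ} (A : ArcDiagram m n)

/-- The number of interleaving pairs of pieces of the stars `b` and `k`. -/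
noncomputable def cr (b k : Fin n) : ℕ := ∑ x, ∑ y, (A.arm x b).cr (A.arm y k)

/-- The total number of interleaving pairs. -/
noncomputable def total : ℕ := ∑ b, ∑ k ∈ Finset.univ.filter (fun k => b < k), A.cr b k

end ArcDiagram

end Vale.Agent.P040.Topo
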