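import Vale.Agent.P040.H198.Chain

/-!
# Taming: a finite family of arcs becomes a family of polygonal arcs with the same meeting points
-/

namespace Vale.Agent.P040.Topo

open Set Filter Topology

theorem small {c : ℝ} (hc : 0 < c) : ∀ᶠ r in 𝓝[>] (0 : ℝ), 4 * r < c := by
  filter_upwards [mem_nhdsWithin_of_mem_nhds (Iio_mem_nhds (show (0 : ℝ) < c / 4 by linarith))]
    with r hr
  have : r < c / 4 := hr
  linarith

/-- Two disjoint compact sets are at positive distance. -/
theorem sep {A B : Set Plane} (hA : IsCompact A) (hB : IsCompact B) (h : Disjoint A B) :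
    ∀ᶠ r in 𝓝[>] (0 : ℝ), ∀ x ∈ A, ∀ y ∈ B, 4 * r < dist x y := by
  rcases (A ×ˢ B).eq_empty_or_nonempty with he | hne
  · refine Eventually.of_forall fun r x hx y hy => ?_
    have : (x, y) ∈ A ×ˢ B := ⟨hx, hy⟩
    rw [he] at this
    exact absurd this (by simp)
  · obtain ⟨q, hq, hmin⟩ := (hA.prod hB).exists_isMinOn hne
      (f := fun p : Plane × Plane => dist p.1 p.2) (by fun_prop)
    have hpos : 0 < dist q.1 q.2 := by
      rw [dist_pos]
      intro e
      exact (disjoint_left.1 h) hq.1 (e ▸ hq.2)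
    filter_upwards [small hpos] with r hr x hx y hy
    exact hr.trans_le (hmin (show (x, y) ∈ A ×ˢ B from ⟨hx, hy⟩))

variable {ι : Type} [Finite ι]

theorem exists_radius (S : ι → Set Plane) {P : Set Plane} (hP : P.Finite)
    (hS : ∀ i, IsCompact (S i)) : ∃ r : ℝ, 0 < r ∧
      (∀ p ∈ P, ∀ q ∈ P, p ≠ q → 4 * r < dist p q) ∧
      (∀ i, ∀ p ∈ P, p ∉ S i → ∀ z ∈ S i, 4 * r < dist z p) := by
  have hpos : ∀ᶠ r in 𝓝[>] (0 : ℝ), 0 < r := by
    filter_upwards [self_mem_nhdsWithin] with r hr using hr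
  have h1 : ∀ᶠ r in 𝓝[>] (0 : ℝ), ∀ p ∈ P, ∀ q ∈ P, p ≠ q → 4 * r < dist p q := by
    rw [eventually_all_finite hP]
    intro p _
    rw [eventually_all_finite hP]
    intro q _
    by_cases hpq : p = q
    · exact Eventually.of_forall fun r h => absurd hpq h
    · filter_upwards [small (dist_pos.2 hpq)] with r hr _ using hr
  have h2 : ∀ᶠ r in 𝓝[>] (0 : ℝ), ∀ i, ∀ p ∈ P, p ∉ S i → ∀ z ∈ S i, 4 * r < dist z p := by
    rw [eventually_all]
    intro i
    rw [eventually_all_finite hP]
    intro p _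
    by_cases hp : p ∈ S i
    · exact Eventually.of_forall fun r h => absurd hp h
    · filter_upwards [sep (hS i) (isCompact_singleton (x := p)) (by simpa using hp)] with r hr _ z hz
      exact hr z hz p rfl
  obtain ⟨r, h3, h4, h5⟩ := (hpos.and (h1.and h2)).exists
  exact ⟨r, h3, h4, h5⟩

/-- The part of `S` outside the balls. -/
def core (S P : Set Plane) (r : ℝ) : Set Plane := S \ ⋃ p ∈ P, Metric.ball p r

theorem isCompact_core {S P : Set Plane} {r : ℝ} (hS : IsCompact S) : IsCompact (core S P r) :=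
  hS.diff (isOpen_biUnion fun _ _ => Metric.isOpen_ball)

theorem mem_core {S P : Set Plane} {r : ℝ} {z : Plane} :
    z ∈ core S P r ↔ z ∈ S ∧ ∀ p ∈ P, r ≤ dist z p := by
  simp [core, Metric.mem_ball]

theorem exists_eta (S : ι → Set Plane) {P : Set Plane} {r : ℝ} (hr : 0 < r)
    (hS : ∀ i, IsCompact (S i)) (hI : ∀ i j, i ≠ j → S i ∩ S j ⊆ P) : ∃ η : ℝ, 0 < η ∧ η < r ∧
      (∀ i j, i ≠ j → ∀ z ∈ core (S i) P r, ∀ z' ∈ core (S j) P r, 4 * η < dist z z') := by
  have hpos : ∀ᶠ r in 𝓝[>] (0 : ℝ), 0 < r := by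
    filter_upwards [self_mem_nhdsWithin] with r hr using hr
  have h1 : ∀ᶠ η in 𝓝[>] (0 : ℝ), ∀ i j, i ≠ j → ∀ z ∈ core (S i) P r, ∀ z' ∈ core (S j) P r,
      4 * η < dist z z' := by
    rw [eventually_all]
    intro i
    rw [eventually_all]
    intro j
    by_cases hij : i = j
    · exact Eventually.of_forall fun r h => absurd hij h
    · filter_upwards [sep (isCompact_core (P := P) (r := r) (hS i))
        (isCompact_core (P := P) (r := r) (hS j)) (by
          rw [disjoint_left]
          intro z hz hz'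
          rw [mem_core] at hz hz'
          have := hz.2 z (hI i j hij ⟨hz.1, hz'.1⟩)
          rw [dist_self] at this
          linarith)] with η hη _ using hη
  obtain ⟨η, h2, h3, h4⟩ := (hpos.and ((small hr).and h1)).exists
  exact ⟨η, h2, by linarith, h4⟩

/-- The allowed segments of the polygonal chain of `S`. -/
inductive Step (S P : Set Plane) (r η : ℝ) : Plane → Plane → Prop
  | out {z z' : Plane} (h : z ∈ core S P r) (h' : z' ∈ core S P r) (hd : dist z z' < η) :
      Step S P r η z z'
  | rad {p z : Plane} (hp : p ∈ P) (hpS : p ∈ S) (h : z ∈ core S P r) (hd : dist z p < r + η) :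
      Step S P r η p z
  | rad' {p z : Plane} (hp : p ∈ P) (hpS : p ∈ S) (h : z ∈ core S P r) (hd : dist z p < r + η) :
      Step S P r η z p
  | const {p : Plane} (hp : p ∈ P) (hpS : p ∈ S) : Step S P r η p p

/-- The union of the allowed segments. -/
def region (S P : Set Plane) (r η : ℝ) : Set Plane :=
  {w | ∃ u v, Step S P r η u v ∧ w ∈ segment ℝ u v}

theorem region_cases {S P : Set Plane} {r η : ℝ} {w : Plane} (hw : w ∈ region S P r η) :
    (w ∈ P ∧ w ∈ S) ∨ (∃ z ∈ core S P r, dist w z < η) ∨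
      ∃ p ∈ P, p ∈ S ∧ ∃ z ∈ core S P r, dist z p < r + η ∧ ∃ s : ℝ, 0 < s ∧ s ≤ 1 ∧
        w - p = s • (z - p) := by
  obtain ⟨u, v, h, hw⟩ := hw
  have rad : ∀ {p z : Plane}, p ∈ P → p ∈ S → z ∈ core S P r → dist z p < r + η →
      w ∈ segment ℝ p z → (w ∈ P ∧ w ∈ S) ∨ ∃ p ∈ P, p ∈ S ∧ ∃ z ∈ core S P r,
        dist z p < r + η ∧ ∃ s : ℝ, 0 < s ∧ s ≤ 1 ∧ w - p = s • (z - p) := by
    intro p z hp hpS hz hd hw
    rw [segment_eq_image_lineMap] at hw
    obtain ⟨s, hs, rfl⟩ := hw
    rcases hs.1.eq_or_lt with h0 | h0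
    · left
      rw [← h0, AffineMap.lineMap_apply_zero]
      exact ⟨hp, hpS⟩
    · right
      refine ⟨p, hp, hpS, z, hz, hd, s, h0, hs.2, ?_⟩
      rw [AffineMap.lineMap_apply]
      simp
  cases h with
  | out h h' hd =>
    right; left
    refine ⟨u, h, ?_⟩
    rw [segment_eq_image_lineMap] at hw
    obtain ⟨s, hs, rfl⟩ := hw
    rw [dist_comm, dist_left_lineMap, Real.norm_of_nonneg hs.1]
    calc s * dist u v ≤ 1 * dist u v := mul_le_mul_of_nonneg_right hs.2 dist_nonneg
      _ < η := by rw [one_mul]; exact hd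
  | rad hp hpS h hd =>
    rcases rad hp hpS h hd hw with h1 | h1
    · left; exact h1
    · right; right; exact h1
  | rad' hp hpS h hd =>
    rw [segment_symm] at hw
    rcases rad hp hpS h hd hw with h1 | h1
    · left; exact h1
    · right; right; exact h1
  | const hp hpS =>
    left
    simp only [segment_same, mem_singleton_iff] at hw
    rw [hw]
    exact ⟨hp, hpS⟩

/-- In the region the only points of `P` are those on `S`. -/
theorem region_inter {S P : Set Plane} {r η : ℝ} (hr : 0 < r) (hη : η < r)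
    (hP : ∀ p ∈ P, ∀ q ∈ P, p ≠ q → 4 * r < dist p q) {w : Plane}
    (hw : w ∈ region S P r η) (hwP : w ∈ P) : w ∈ S := by
  rcases region_cases hw with h | ⟨z, hz, hd⟩ | ⟨p, hp, hpS, z, hz, hd, s, hs0, hs1, hws⟩
  · exact h.2
  · exfalso
    have := (mem_core.1 hz).2 w hwP
    rw [dist_comm] at this
    linarith
  · by_cases hpw : p = w
    · rwa [← hpw]
    · exfalso
      have h1 := hP p hp w hwP hpw
      have h2 : dist w p = s * dist z p := by
        rw [dist_eq_norm, hws, norm_smul, Real.norm_of_nonneg hs0.le, ← dist_eq_norm]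
      have h3 : s * dist z p ≤ 1 * dist z p := mul_le_mul_of_nonneg_right hs1 dist_nonneg
      rw [dist_comm] at h1
      linarith

theorem dist_eq_of_smul {p z w : Plane} {s : ℝ} (hs : 0 < s) (h : w - p = s • (z - p)) :
    dist w p = s * dist z p := by
  rw [dist_eq_norm, h, norm_smul, Real.norm_of_nonneg hs.le, ← dist_eq_norm]

theorem dist_eq_of_smul' {p z w : Plane} {s : ℝ} (hs : s ≤ 1) (h : w - p = s • (z - p)) :
    dist w z = (1 - s) * dist z p := by
  have : w - z = (-(1 - s)) • (z - p) := by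
    have e : w - z = (w - p) - (z - p) := by abel
    rw [e, h]
    module
  rw [dist_eq_norm, this, norm_smul, norm_neg, Real.norm_of_nonneg (by linarith), ← dist_eq_norm]

/-- The regions of two sets with separated cores meet only in `P`. -/
theorem region_disjoint {S S' P : Set Plane} {r η : ℝ} (hη : η < r)
    (hP : ∀ p ∈ P, ∀ q ∈ P, p ≠ q → 4 * r < dist p q)
    (hd : ∀ z ∈ core S P r, ∀ z' ∈ core S' P r, 4 * η < dist z z') {w : Plane}
    (hw : w ∈ region S P r η) (hw' : w ∈ region S' P r η) : w ∈ P := by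
  by_contra hwP
  have mixed : ∀ {A B : Set Plane}, (∀ z ∈ core A P r, ∀ z' ∈ core B P r, 4 * η < dist z z') →
      (∃ z ∈ core A P r, dist w z < η) → (∃ p ∈ P, p ∈ B ∧ ∃ z ∈ core B P r, dist z p < r + η ∧
        ∃ s : ℝ, 0 < s ∧ s ≤ 1 ∧ w - p = s • (z - p)) → False := by
    rintro A B hAB ⟨z, hz, hwz⟩ ⟨p, hp, hpB, z', hz', hdz', s, hs0, hs1, hws⟩
    have h1 := hAB z hz z' hz'
    have h2 := (mem_core.1 hz).2 p hp
    have h3 := dist_eq_of_smul hs0 hws
    have h4 := dist_eq_of_smul' hs1 hws
    have h5 : dist z p ≤ dist w z + dist w p := by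
      rw [dist_comm w z]; exact dist_triangle _ _ _
    have h6 : dist z z' ≤ dist w z + dist w z' := by
      rw [dist_comm w z]; exact dist_triangle _ _ _
    have h0 : 0 ≤ dist w z := dist_nonneg
    have e : (1 - s) * dist z' p = dist z' p - s * dist z' p := by ring
    linarith
  rcases region_cases hw with h | h | h
  · exact hwP h.1
  · rcases region_cases hw' with h' | h' | h'
    · exact hwP h'.1
    · obtain ⟨z, hz, hwz⟩ := h
      obtain ⟨z', hz', hwz'⟩ := h'
      have h1 := hd z hz z' hz'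
      have h6 : dist z z' ≤ dist w z + dist w z' := by
        rw [dist_comm w z]; exact dist_triangle _ _ _
      have h0 : 0 ≤ dist w z := dist_nonneg
      linarith
    · exact mixed hd h h'
  · rcases region_cases hw' with h' | h' | h'
    · exact hwP h'.1
    · exact mixed (fun z hz z' hz' => by rw [dist_comm]; exact hd z' hz' z hz) h' h
    · obtain ⟨p, hp, hpB, z, hz, hdz, s, hs0, hs1, hws⟩ := h
      obtain ⟨q, hq, hqB, z', hz', hdz', t, ht0, ht1, hwt⟩ := h'
      have h3 := dist_eq_of_smul hs0 hws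
      have k3 := dist_eq_of_smul ht0 hwt
      have b3 : s * dist z p ≤ 1 * dist z p := mul_le_mul_of_nonneg_right hs1 dist_nonneg
      have c3 : t * dist z' q ≤ 1 * dist z' q := mul_le_mul_of_nonneg_right ht1 dist_nonneg
      by_cases hpq : p = q
      · subst hpq
        have hwp : 0 < dist w p := dist_pos.2 fun e => hwP (e ▸ hp)
        have h1 := hd z hz z' hz'
        have h2 := (mem_core.1 hz).2 p hp
        have h2' := (mem_core.1 hz').2 p hp
        have e : z - z' = (s⁻¹ - t⁻¹) • (w - p) := by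
          rw [sub_smul]
          nth_rewrite 1 [hws]
          rw [hwt, smul_smul, smul_smul, inv_mul_cancel₀ hs0.ne', inv_mul_cancel₀ ht0.ne']
          simp
        have e2 : dist z z' = |s⁻¹ - t⁻¹| * dist w p := by
          rw [dist_eq_norm, e, norm_smul, Real.norm_eq_abs, ← dist_eq_norm]
        have e3 : dist z p = s⁻¹ * dist w p := by
          rw [h3]; field_simp
        have e4 : dist z' p = t⁻¹ * dist w p := by
          rw [k3]; field_simp
        have e5 : dist z z' = |dist z p - dist z' p| := by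
          rw [e2, e3, e4, ← sub_mul, abs_mul, abs_of_pos hwp]
        have e6 : |dist z p - dist z' p| < η := by
          rw [abs_lt]
          constructor <;> linarith
        have h0 : 0 ≤ dist z z' := dist_nonneg
        linarith
      · have h1 := hP p hp q hq hpq
        have h2 : dist p q ≤ dist w p + dist w q := by
          rw [dist_comm w p]; exact dist_triangle _ _ _
        linarith

/-- Sampling an arc gives a chain of allowed steps. -/
theorem exists_chain {S P : Set Plane} {a b : Plane} {r η : ℝ} (hS : IsArc S a b) (ha : a ∈ P)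
    (hb : b ∈ P) (hr : 0 < r) (hη : 0 < η) (hηr : η < r)
    (hP : ∀ p ∈ P, ∀ q ∈ P, p ≠ q → 4 * r < dist p q)
    (hPS : ∀ p ∈ P, p ∉ S → ∀ z ∈ S, 4 * r < dist z p) :
    ∃ (N : ℕ) (u : ℕ → Plane), u 0 = a ∧ u N = b ∧ ∀ k < N, Step S P r η (u k) (u (k + 1)) := by
  classical
  obtain ⟨γ, h1, h2, h3, h4, h5⟩ := hS
  have huc : UniformContinuousOn γ (Icc 0 1) := isCompact_Icc.uniformContinuousOn_of_continuous h1
  rw [Metric.uniformContinuousOn_iff] at huc
  obtain ⟨δ, hδ, hδ'⟩ := huc η hη
  obtain ⟨N, hN⟩ := exists_nat_gt (1 / δ)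
  have hN0 : (0 : ℝ) < N := lt_trans (by positivity) hN
  have hNδ : 1 / (N : ℝ) < δ := by
    rw [div_lt_iff₀ hN0]
    rw [div_lt_iff₀ hδ] at hN
    linarith
  set snap : Plane → Plane := fun z => if h : ∃ p ∈ P, dist z p < r then h.choose else z with hsn
  have snap_in : ∀ z, ∀ p ∈ P, dist z p < r → snap z = p := by
    intro z p hp hz
    have h : ∃ p ∈ P, dist z p < r := ⟨p, hp, hz⟩
    have e : snap z = h.choose := by simp only [hsn, dif_pos h]
    have hc := h.choose_spec
    rw [e]
    by_contra hne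
    have h6 := hP _ hc.1 p hp hne
    have h7 : dist h.choose p ≤ dist z h.choose + dist z p := by
      rw [dist_comm z h.choose]; exact dist_triangle _ _ _
    linarith [hc.2]
  have snap_out : ∀ z, (∀ p ∈ P, r ≤ dist z p) → snap z = z := by
    intro z hz
    have h : ¬ ∃ p ∈ P, dist z p < r := by
      rintro ⟨p, hp, h⟩
      exact absurd (hz p hp) (not_le.2 h)
    simp only [hsn, dif_neg h]
  have hmem : ∀ k : ℕ, k ≤ N → (k : ℝ) / N ∈ Icc (0 : ℝ) 1 := by
    intro k hk
    refine ⟨by positivity, ?_⟩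
    rw [div_le_one hN0]
    exact_mod_cast hk
  refine ⟨N, fun k => snap (γ (k / N)), ?_, ?_, ?_⟩
  · simp only [Nat.cast_zero, zero_div]
    rw [h3]
    exact snap_in a a ha (by rw [dist_self]; exact hr)
  · have : (N : ℝ) / N = 1 := div_self hN0.ne'
    simp only [this]
    rw [h4]
    exact snap_in b b hb (by rw [dist_self]; exact hr)
  · intro k hk
    have m1 := hmem k hk.le
    have m2 := hmem (k + 1) hk
    have hd : dist (γ ((k : ℝ) / N)) (γ (((k + 1 : ℕ) : ℝ) / N)) < η := by
      apply hδ' _ m1 _ m2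
      rw [Real.dist_eq]
      have : (k : ℝ) / N - ((k + 1 : ℕ) : ℝ) / N = - (1 / N) := by
        push_cast
        ring
      rw [this, abs_neg, abs_of_pos (by positivity)]
      exact hNδ
    set z := γ ((k : ℝ) / N) with hz
    set z' := γ (((k + 1 : ℕ) : ℝ) / N) with hz'
    have zS : z ∈ S := by rw [← h5]; exact ⟨_, m1, rfl⟩
    have zS' : z' ∈ S := by rw [← h5]; exact ⟨_, m2, rfl⟩
    have onS : ∀ p ∈ P, ∀ y ∈ S, dist y p < r → p ∈ S := by
      intro p hp y hy hyp
      by_contra h
      have := hPS p hp h y hy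
      linarith
    show Step S P r η (snap z) (snap z')
    by_cases c1 : ∃ p ∈ P, dist z p < r
    · obtain ⟨p, hp, hzp⟩ := c1
      have e1 := snap_in z p hp hzp
      by_cases c2 : ∃ q ∈ P, dist z' q < r
      · obtain ⟨q, hq, hzq⟩ := c2
        have e2 := snap_in z' q hq hzq
        have hpq : p = q := by
          by_contra hne
          have h6 := hP p hp q hq hne
          have h7 : dist p q ≤ dist p z + dist z z' + dist z' q := dist_triangle4 _ _ _ _
          rw [dist_comm p z] at h7
          linarith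
        rw [e1, e2, ← hpq]
        exact Step.const hp (onS p hp z zS hzp)
      · push Not at c2
        have e2 := snap_out z' c2
        rw [e1, e2]
        refine Step.rad hp (onS p hp z zS hzp) (mem_core.2 ⟨zS', c2⟩) ?_
        have h7 : dist z' p ≤ dist z z' + dist z p := by
          rw [dist_comm z z']; exact dist_triangle _ _ _
        linarith
    · push Not at c1
      have e1 := snap_out z c1
      by_cases c2 : ∃ q ∈ P, dist z' q < r
      · obtain ⟨q, hq, hzq⟩ := c2
        have e2 := snap_in z' q hq hzq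
        rw [e1, e2]
        refine Step.rad' hq (onS q hq z' zS' hzq) (mem_core.2 ⟨zS, c1⟩) ?_
        have h7 : dist z q ≤ dist z z' + dist z' q := dist_triangle _ _ _
        linarith
      · push Not at c2
        have e2 := snap_out z' c2
        rw [e1, e2]
        exact Step.out (mem_core.2 ⟨zS, c1⟩) (mem_core.2 ⟨zS', c2⟩) hd

/-- **Taming.** A finite family of arcs whose common points and end points lie in a finite set
`P` can be replaced by a family of polygonal arcs with the same ends which meet only where the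
given arcs meet, and which contain no new point of `P`. -/
theorem tame (S : ι → Set Plane) (a b : ι → Plane) {P : Set Plane} (hP : P.Finite)
    (hS : ∀ i, IsArc (S i) (a i) (b i)) (hab : ∀ i, a i ≠ b i) (ha : ∀ i, a i ∈ P)
    (hb : ∀ i, b i ∈ P) (hI : ∀ i j, i ≠ j → S i ∩ S j ⊆ P) :
    ∃ T : ι → Set Plane, (∀ i, IsArc (T i) (a i) (b i)) ∧ (∀ i, Covered (T i)) ∧
      (∀ i j, i ≠ j → T i ∩ T j ⊆ S i ∩ S j) ∧ (∀ i, T i ∩ P ⊆ S i) := by
  obtain ⟨r, hr, h1, h2⟩ := exists_radius S hP fun i => (hS i).isCompact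
  obtain ⟨η, hη, hηr, h3⟩ := exists_eta S hr (fun i => (hS i).isCompact) hI
  have key : ∀ i, ∃ T ⊆ region (S i) P r η, IsArc T (a i) (b i) ∧ Covered T := by
    intro i
    obtain ⟨N, u, h4, h5, h6⟩ := exists_chain (hS i) (ha i) (hb i) hr hη hηr h1 (h2 i)
    have := chain_arc (W := region (S i) P r η) (N := N) (u := u)
      (fun k hk w hw => ⟨_, _, h6 k hk, hw⟩) (by rw [h4, h5]; exact hab i)
    rwa [h4, h5] at this
  choose T hT hA hC using key
  have hTP : ∀ i, T i ∩ P ⊆ S i := fun i w hw => region_inter hr hηr h1 (hT i hw.1) hw.2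
  refine ⟨T, hA, hC, ?_, hTP⟩
  intro i j hij w hw
  have hwP := region_disjoint hηr h1 (h3 i j hij) (hT i hw.1) (hT j hw.2)
  exact ⟨hTP i ⟨hw.1, hwP⟩, hTP j ⟨hw.2, hwP⟩⟩

end Vale.Agent.P040.Topo
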