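import Vale.Agent.P040.H198.Targets
import Vale.Agent.P040.H198.Tame
import Vale.Agent.P040.Gen.Uncross

/-!
# From drawings to arc diagrams: assembly
-/

namespace Vale.Agent.P040.Topo

open Set

theorem IsArc.homeo {S : Set Plane} {p q : Plane} (h : IsArc S p q) (Φ : Plane ≃ₜ Plane) :
    IsArc (Φ '' S) (Φ p) (Φ q) := by
  obtain ⟨γ, h1, h2, h3, h4, h5⟩ := h
  refine ⟨fun t => Φ (γ t), Φ.continuous.comp_continuousOn h1,
    fun s hs t ht hst => h2 hs ht (Φ.injective hst), by simp only [h3], by simp only [h4], ?_⟩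
  rw [← h5, image_image]

theorem assemble (h2 : SpineStatement) (h3 : ReadStatement) {m n : ℕ} (hm : 0 < m) (hn : 0 < n)
    (D : Drawing (K m n)) : ∃ A : ArcDiagram m n, A.total ≤ D.crossings := by
  classical
  obtain ⟨D', hD', hU⟩ := D.uncross_gen
  set E : Fin m × Fin n → Sym2 (Fin m ⊕ Fin n) := fun i => s(Sum.inr i.2, Sum.inl i.1) with hE
  have hEmem : ∀ i, E i ∈ (K m n).edgeSet := by
    intro i
    rw [hE, SimpleGraph.mem_edgeSet]
    simp
  have hEinj : ∀ i j, i ≠ j → E i ≠ E j := by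
    rintro ⟨x, b⟩ ⟨y, k⟩ hij he
    simp only [hE, Sym2.eq_iff] at he
    rcases he with ⟨h1, h2⟩ | ⟨h1, h2⟩
    · exact hij (by rw [Sum.inr_injective h1, Sum.inl_injective h2])
    · exact absurd h1 (by simp)
  have hadj : ∀ i : Fin m × Fin n, (K m n).Adj (Sum.inr i.2) (Sum.inl i.1) := by
    intro i
    simp
  set P : Set Plane := range D'.pos ∪ D'.crossingSet with hP
  have hPf : P.Finite := (finite_range _).union D'.crossingSet_finite
  have hI : ∀ i j, i ≠ j → D'.arc (E i) ∩ D'.arc (E j) ⊆ P := by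
    intro i j hij w hw
    by_cases hw0 : w ∈ range D'.pos
    · exact Or.inl hw0
    · exact Or.inr ⟨hw0, _, hEmem i, _, hEmem j, hEinj i j hij, hw.1, hw.2⟩
  obtain ⟨T, hT, hTc, hTI, hTP⟩ := tame (fun i => D'.arc (E i)) (fun i => D'.pos (Sum.inr i.2))
    (fun i => D'.pos (Sum.inl i.1)) hPf (fun i => D'.isArc _ _ (hadj i))
    (fun i h => absurd (D'.pos_inj h) (by simp)) (fun i => Or.inl ⟨_, rfl⟩)
    (fun i => Or.inl ⟨_, rfl⟩) hI
  choose F hF using hTc
  obtain ⟨Φ, hV, hC, hfin⟩ := h2 (range D'.pos) D'.crossingSet (Finset.univ.biUnion F)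
    (finite_range _) (by
      refine ⟨D'.pos (Sum.inl ⟨0, hm⟩), ⟨_, rfl⟩, D'.pos (Sum.inr ⟨0, hn⟩), ⟨_, rfl⟩, ?_⟩
      intro h
      exact absurd (D'.pos_inj h) (by simp)) D'.crossingSet_finite (by
      rw [disjoint_left]
      intro w hw hw'
      exact hw'.1 hw)
  have hΦ : ∀ v, Φ (D'.pos v) = ((Φ (D'.pos v)).1, 0) := by
    intro v
    ext
    · rfl
    · exact hV _ ⟨v, rfl⟩
  have hinj : ∀ v w, (Φ (D'.pos v)).1 = (Φ (D'.pos w)).1 → v = w := by
    intro v w h
    apply D'.pos_inj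
    apply Φ.injective
    rw [hΦ v, hΦ w, h]
  -- points on two edges without common ends
  have hdisj : ∀ i j : Fin m × Fin n, i.1 ≠ j.1 → i.2 ≠ j.2 → ∀ w, w ∈ D'.arc (E i) →
      w ∈ D'.arc (E j) → w ∈ D'.crossingSet := by
    intro i j h1 h2 w hw hw'
    have hij : i ≠ j := fun h => h1 (by rw [h])
    refine ⟨?_, _, hEmem i, _, hEmem j, hEinj i j hij, hw, hw'⟩
    rintro ⟨v, rfl⟩
    have k1 := D'.avoid _ (hEmem i) v hw
    have k2 := D'.avoid _ (hEmem j) v hw'
    simp only [hE, Sym2.mem_iff] at k1 k2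
    rcases k1 with rfl | rfl <;> rcases k2 with k2 | k2
    · exact h2 (Sum.inr_injective k2)
    · exact absurd k2 (by simp)
    · exact absurd k2 (by simp)
    · exact h1 (Sum.inl_injective k2)
  have hTS : ∀ i, ∀ c ∈ D'.crossingSet, c ∈ T i → c ∈ D'.arc (E i) :=
    fun i c hc hcT => hTP i ⟨hcT, Or.inr hc⟩
  obtain ⟨A, -, -, hA⟩ := h3 m n (fun x b => Φ '' T (x, b)) (fun x => (Φ (D'.pos (Sum.inl x))).1)
    (fun b => (Φ (D'.pos (Sum.inr b))).1) (Φ '' D'.crossingSet)
    (fun x y h => Sum.inl_injective (hinj _ _ h)) (fun x y h => Sum.inr_injective (hinj _ _ h))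
    (fun x b h => absurd (hinj _ _ h) (by simp))
    (by
      intro x b
      rw [← hΦ, ← hΦ]
      exact IsArc.homeo (hT (x, b)) Φ)
    (by
      intro x b
      have h4 : {w | w ∈ T (x, b) ∧ (Φ w).2 = 0}.Finite := by
        apply Set.Finite.subset (Set.Finite.biUnion (Finset.univ.biUnion F).finite_toSet hfin)
        rintro w ⟨hw, hw0⟩
        have := hF (x, b) hw
        simp only [mem_iUnion] at this ⊢
        obtain ⟨e, he, hwe⟩ := this
        refine ⟨e, ?_, hwe, hw0⟩
        simp only [Finset.coe_biUnion, mem_iUnion, Finset.coe_univ, mem_univ, exists_prop, true_and]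
        exact ⟨(x, b), he⟩
      apply (h4.image Φ).subset
      rintro w ⟨⟨u, hu, rfl⟩, hw0⟩
      exact ⟨u, ⟨hu, hw0⟩, rfl⟩)
    (D'.crossingSet_finite.image _)
    (by
      rintro c ⟨u, hu, rfl⟩
      exact hC u hu)
    (by
      rintro x y b hxy w ⟨u, hu, rfl⟩ ⟨u', hu', he⟩
      have := Φ.injective he
      subst this
      have h4 := hTI (x, b) (y, b) (fun h => hxy (congrArg Prod.fst h)) ⟨hu, hu'⟩
      rw [← hΦ]
      congr 1
      exact hU (Sum.inr b) (Sum.inl x) (Sum.inl y) (by simp) (by simp)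
        (fun h => hxy (Sum.inl_injective h)) u' h4.1 h4.2)
    (by
      rintro x b k hbk w ⟨u, hu, rfl⟩ ⟨u', hu', he⟩
      have := Φ.injective he
      subst this
      have h4 := hTI (x, b) (x, k) (fun h => hbk (congrArg Prod.snd h)) ⟨hu, hu'⟩
      rw [← hΦ]
      congr 1
      have e1 : E (x, b) = s(Sum.inl x, Sum.inr b) := Sym2.eq_swap
      have e2 : E (x, k) = s(Sum.inl x, Sum.inr k) := Sym2.eq_swap
      have h5 := h4.1
      have h6 := h4.2
      simp only [e1, e2] at h5 h6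
      exact hU (Sum.inl x) (Sum.inr b) (Sum.inr k) (by simp) (by simp)
        (fun h => hbk (Sum.inr_injective h)) u' h5 h6)
    (by
      rintro x y b k hxy hbk w ⟨u, hu, rfl⟩ ⟨u', hu', he⟩
      have := Φ.injective he
      subst this
      have h4 := hTI (x, b) (y, k) (fun h => hxy (congrArg Prod.fst h)) ⟨hu, hu'⟩
      exact ⟨u', hdisj (x, b) (y, k) hxy hbk u' h4.1 h4.2, rfl⟩)
    (by
      rintro c ⟨u, hu, rfl⟩ x y b k x' y' b' k' hbk hbk' ⟨u1, hu1, e1⟩ ⟨u2, hu2, e2⟩
        ⟨u3, hu3, e3⟩ ⟨u4, hu4, e4⟩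
      have := Φ.injective e1; subst this
      have := Φ.injective e2; subst this
      have := Φ.injective e3; subst this
      have := Φ.injective e4; subst this
      have h1 := hTS _ _ hu hu1
      have h2 := hTS _ _ hu hu2
      have h3 := hTS _ _ hu hu3
      have h4 := hTS _ _ hu hu4
      have n1 : E (x, b) ≠ E (y, k) := hEinj _ _ fun h => hbk.ne (congrArg Prod.snd h)
      have n2 : E (x', b') ≠ E (y', k') := hEinj _ _ fun h => hbk'.ne (congrArg Prod.snd h)
      rcases D'.pair_unique hu.1 (hEmem _) (hEmem _) (hEmem _) (hEmem _) n1 n2 h1 h2 h3 h4 with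
        ⟨h5, h6⟩ | ⟨h5, h6⟩
      · have k5 : (x, b) = (x', b') := by
          by_contra hne
          exact hEinj _ _ hne h5
        have k6 : (y, k) = (y', k') := by
          by_contra hne
          exact hEinj _ _ hne h6
        simp only [Prod.mk.injEq] at k5 k6
        exact ⟨k5.1, k5.2, k6.1, k6.2⟩
      · have k5 : (x, b) = (y', k') := by
          by_contra hne
          exact hEinj _ _ hne h5
        have k6 : (y, k) = (x', b') := by
          by_contra hne
          exact hEinj _ _ hne h6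
        simp only [Prod.mk.injEq] at k5 k6
        exfalso
        have h7 : k' < b' := by rw [← k5.2, ← k6.2]; exact hbk
        exact absurd hbk' h7.not_gt)
  refine ⟨A, hA.trans (le_trans (le_of_eq ?_) hD')⟩
  rw [ncard_image_of_injective _ Φ.injective]
  rfl

end Vale.Agent.P040.Topo
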