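import Vale.Agent.P040.H198.Assemble
import Vale.Agent.P040.H577.Spine
import Vale.Agent.P040.H709.Read

/-!
# From drawings to arc diagrams
-/

namespace Vale.Agent.P040.Topo

/-- **The bridge.** Every drawing of `K_{m,n}` gives an arc diagram of `K_{m,n}` with at most as
many interleaving pairs as the drawing has crossings. -/
theorem exists_arcDiagram {m n : ℕ} (hm : 0 < m) (hn : 0 < n) (D : Drawing (K m n)) :
    ∃ A : ArcDiagram m n, A.total ≤ D.crossings :=
  assemble spine read hm hn D

end Vale.Agent.P040.Topo
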