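import Vale.Agent.P040.Gen.Surgery

/-!
# Polygonal arcs: sub-arcs, and arcs inside a chain of segments
-/

namespace Vale.Agent.P040.Topo

open Set Filter Topology

/-- `T` is covered by finitely many segments. -/
def Covered (T : Set Plane) : Prop :=
  ∃ F : Finset (Plane × Plane), T ⊆ ⋃ e ∈ F, segment ℝ e.1 e.2

theorem Covered.mono {S T : Set Plane} (h : Covered T) (hST : S ⊆ T) : Covered S := by
  obtain ⟨F, hF⟩ := h
  exact ⟨F, hST.trans hF⟩

theorem Covered.union {S T : Set Plane} (h : Covered S) (h' : Covered T) : Covered (S ∪ T) := by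
  classical
  obtain ⟨F, hF⟩ := h
  obtain ⟨G, hG⟩ := h'
  refine ⟨F ∪ G, union_subset (hF.trans ?_) (hG.trans ?_)⟩
  · exact biUnion_subset_biUnion_left (by simp)
  · exact biUnion_subset_biUnion_left (by simp)

theorem covered_segment (p q : Plane) : Covered (segment ℝ p q) :=
  ⟨{(p, q)}, by simp⟩

theorem isArc_segment {p q : Plane} (h : p ≠ q) : IsArc (segment ℝ p q) p q := by
  refine ⟨fun t => AffineMap.lineMap p q t, ?_, ?_, by simp, by simp, ?_⟩
  · exact (AffineMap.lineMap_continuous (R := ℝ)).continuousOn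
  · exact (AffineMap.lineMap_injective ℝ h).injOn
  · rw [segment_eq_image_lineMap]

theorem exists_subarc {T : Set Plane} {q r u : Plane} (hT : IsArc T q r) (hu : u ∈ T)
    (hur : u ≠ r) : ∃ T' ⊆ T, IsArc T' u r := by
  obtain ⟨γ, h1, h2, h3, h4, h5⟩ := hT
  rw [← h5] at hu
  obtain ⟨s, hs, rfl⟩ := hu
  have hs1 : s < 1 := by
    rcases hs.2.eq_or_lt with h | h
    · exact absurd (by rw [h, h4]) hur
    · exact h
  refine ⟨γ '' Icc s 1, ?_, ?_⟩
  · rw [← h5]
    exact image_mono (Icc_subset_Icc hs.1 le_rfl)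
  · have := Unc.isArc_image hs1 (h1.mono (Icc_subset_Icc hs.1 le_rfl))
      (h2.mono (Icc_subset_Icc hs.1 le_rfl))
    rwa [h4] at this

theorem cons_arc {W : Set Plane} {p q r : Plane} (hpq : segment ℝ p q ⊆ W) (hpr : p ≠ r)
    (hT : q = r ∨ ∃ T ⊆ W, IsArc T q r ∧ Covered T) : ∃ T ⊆ W, IsArc T p r ∧ Covered T := by
  rcases hT with rfl | ⟨T, hTW, hT, hTc⟩
  · exact ⟨_, hpq, isArc_segment hpr, covered_segment _ _⟩
  by_cases hp : p ∈ T
  · obtain ⟨T', h1, h2⟩ := exists_subarc hT hp hpr
    exact ⟨T', h1.trans hTW, h2, hTc.mono h1⟩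
  have hcl : IsClosed T := hT.isClosed
  have hqT : q ∈ T := by
    obtain ⟨γ, h1, h2, h3, h4, h5⟩ := hT
    rw [← h5]
    exact ⟨0, by simp, h3⟩
  set A : Set ℝ := Icc 0 1 ∩ (fun t : ℝ => AffineMap.lineMap p q t) ⁻¹' T with hA
  have hcont : Continuous (fun t : ℝ => (AffineMap.lineMap p q t : Plane)) :=
    AffineMap.lineMap_continuous (R := ℝ)
  have hAc : IsCompact A := isCompact_Icc.inter_right (hcl.preimage hcont)
  have hAn : A.Nonempty := ⟨1, by simp, by simpa using hqT⟩
  obtain ⟨t, ⟨htI, htT⟩, htmin⟩ := hAc.exists_isLeast hAn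
  set x : Plane := AffineMap.lineMap p q t with hx
  have hxT : x ∈ T := htT
  have hseg : segment ℝ p x ⊆ segment ℝ p q := by
    apply (convex_segment p q).segment_subset (left_mem_segment ℝ p q)
    rw [segment_eq_image_lineMap]
    exact ⟨t, htI, rfl⟩
  have hpx : p ≠ x := fun h => hp (h ▸ hxT)
  by_cases hxr : x = r
  · refine ⟨segment ℝ p x, hseg.trans hpq, ?_, covered_segment _ _⟩
    rw [← hxr]
    exact isArc_segment hpx
  obtain ⟨T', h1, h2⟩ := exists_subarc hT hxT hxr
  refine ⟨segment ℝ p x ∪ T', union_subset (hseg.trans hpq) (h1.trans hTW),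
    (isArc_segment hpx).concat h2 ?_, (covered_segment _ _).union (hTc.mono h1)⟩
  intro y hy hy'
  rw [segment_eq_image_lineMap] at hy
  obtain ⟨s, hs, rfl⟩ := hy
  rcases hs.2.eq_or_lt with h | h
  · subst h
    simp
  · exfalso
    have e : (AffineMap.lineMap p x s : Plane) = AffineMap.lineMap p q (s * t) := by
      rw [hx, AffineMap.lineMap_apply, AffineMap.lineMap_apply, AffineMap.lineMap_apply]
      simp [mul_smul]
    have hm : s * t ∈ A := by
      refine ⟨⟨mul_nonneg hs.1 htI.1, ?_⟩, ?_⟩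
      · nlinarith [hs.1, hs.2, htI.1, htI.2]
      · show (AffineMap.lineMap p q (s * t) : Plane) ∈ T
        rw [← e]
        exact h1 hy'
    have h3 := htmin hm
    have ht0 : 0 < t := by
      rcases htI.1.eq_or_lt with h0 | h0
      · exfalso
        apply hpx
        rw [hx, ← h0]
        simp
      · exact h0
    nlinarith

/-- A chain of segments contains an arc between its ends. -/
theorem chain_arc {W : Set Plane} {N : ℕ} {u : ℕ → Plane}
    (h : ∀ k < N, segment ℝ (u k) (u (k + 1)) ⊆ W) (h0 : u 0 ≠ u N) :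
    ∃ T ⊆ W, IsArc T (u 0) (u N) ∧ Covered T := by
  have key : ∀ j ≤ N, u (N - j) = u N ∨ ∃ T ⊆ W, IsArc T (u (N - j)) (u N) ∧ Covered T := by
    intro j
    induction j with
    | zero => intro _; left; simp
    | succ j ih =>
      intro hj
      by_cases he : u (N - (j + 1)) = u N
      · left; exact he
      right
      have hs : N - (j + 1) + 1 = N - j := by omega
      apply cons_arc _ he (ih (by omega))
      have := h (N - (j + 1)) (by omega)
      rwa [hs] at this
  rcases key N le_rfl with h1 | h1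
  · rw [Nat.sub_self] at h1
    exact absurd h1 h0
  · rwa [Nat.sub_self] at h1

end Vale.Agent.P040.Topo
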