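import Vale.Agent.P040.H198.HHCore
import Vale.Agent.P040.H837.Comp
import Vale.Agent.P040.Even.Complete

/-!
# The final assembly: `Geo` implies `Machine` and Harary–Hill for even `n`
-/

set_option autoImplicit false

namespace Vale.Agent.P040.Bp

open Topo Finset Hz Pst H84

/-- **The geometric input**: values of closed curves and star diagrams (`CoreHyp`), every spine
star is a diagram, the antipodal potentials, the path between two stars. -/
def Geo : Prop :=
  ∀ h : ℕ, 2 ≤ h → ∀ leaf : Fin (2 * h) → ℝ, Function.Injective leaf →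
    ∃ (Γ : Type) (G : Gaps leaf Γ) (Val : Fin (2 * h) → FreeGroup Γ → ℝ → Prop)
      (Dg : List (Fin (2 * h) × FreeGroup Γ) → Prop) (ε : ℝ),
      CoreHyp h (SStar.tl0 G) Val Dg ε ∧
      (∀ s : SStar leaf, Dg (s.rot.map fun x => (x, s.fw G x))) ∧
      (∀ L L' : List (Fin (2 * h) × FreeGroup Γ), Dg L → Dg L' →
        TEq (L'.map fun p => (p.1, gg (SStar.tl0 G) p))
          (bar (L.map fun p => (p.1, gg (SStar.tl0 G) p))) →
        ∀ z, ∃ q : ℤ, F h (SStar.tl0 G) Val z L' =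
          F h (SStar.tl0 G) Val z L + ((h : ℝ) - 1) / 2 + ((h : ℝ) - 1) * q) ∧
      (∀ b k : SStar leaf, b.GP k → ∃ n L L', n ≤ b.cr k ∧
        TEq (b.rot.map fun x => (x, b.loop G x)) L ∧ HzPath n L L' ∧
        TEq L' (bar (k.rot.map fun x => (x, k.loop G x))))

theorem map_gg_fw {m : ℕ} {leaf : Fin m → ℝ} {Γ : Type*} (G : Gaps leaf Γ) (s : SStar leaf) :
    ((s.rot.map fun x => (x, s.fw G x)).map fun p => (p.1, gg (SStar.tl0 G) p)) =
      s.rot.map fun x => (x, s.loop G x) := by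
  rw [List.map_map]
  apply List.map_congr_left
  intro x _
  rw [s.loop_eq G x]
  rfl

/-- the pair inequality for the potentials `Slot.Fs` -/
theorem pair_of_geo {h : ℕ} {leaf : Fin (2 * h) → ℝ}
    {Γ : Type} {G : Gaps leaf Γ} {Val : Fin (2 * h) → FreeGroup Γ → ℝ → Prop}
    {Dg : List (Fin (2 * h) × FreeGroup Γ) → Prop} {ε : ℝ}
    (H : CoreHyp h (SStar.tl0 G) Val Dg ε)
    (hDg : ∀ s : SStar leaf, Dg (s.rot.map fun x => (x, s.fw G x)))
    (anti : ∀ L L' : List (Fin (2 * h) × FreeGroup Γ), Dg L → Dg L' →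
        TEq (L'.map fun p => (p.1, gg (SStar.tl0 G) p))
          (bar (L.map fun p => (p.1, gg (SStar.tl0 G) p))) →
        ∀ z, ∃ q : ℤ, F h (SStar.tl0 G) Val z L' =
          F h (SStar.tl0 G) Val z L + ((h : ℝ) - 1) / 2 + ((h : ℝ) - 1) * q)
    (path : ∀ b k : SStar leaf, b.GP k → ∃ n L L', n ≤ b.cr k ∧
        TEq (b.rot.map fun x => (x, b.loop G x)) L ∧ HzPath n L L' ∧
        TEq L' (bar (k.rot.map fun x => (x, k.loop G x))))
    (b k : SStar leaf) (hbk : b.GP k) : ∃ q : Fin (2 * h) → ℤ,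
      ∑ z, |Slot.Fs G h Val b z - Slot.Fs G h Val k z - ((h : ℝ) - 1) / 2 -
        ((h : ℝ) - 1) * q z| ≤ b.cr k := by
  have C := core_of_hyp H anti
  let conv : SStar leaf → {L : List (Fin (2 * h) × FreeGroup Γ) // Dg L} := fun s => ⟨_, hDg s⟩
  obtain ⟨n, L, L', hn, h1, h2, h3⟩ := path b k hbk
  rw [← map_gg_fw G b] at h1
  rw [← map_gg_fw G k] at h3
  obtain ⟨s', h4, q, hq⟩ := C.path h2 (conv b) h1
  have h5 := C.anti (conv k) s' (h4.trans h3)
  choose r hr using h5
  refine ⟨fun z => q z + r z, ?_⟩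
  have hn' : (n : ℝ) ≤ (b.cr k : ℝ) := by exact_mod_cast hn
  refine le_trans (le_of_eq ?_) (hq.trans hn')
  apply Finset.sum_congr rfl
  intro z _
  have e := hr z
  simp only at e ⊢
  rw [e]
  congr 1
  show F h (SStar.tl0 G) Val z (b.rot.map fun x => (x, b.fw G x)) -
    F h (SStar.tl0 G) Val z (k.rot.map fun x => (x, k.fw G x)) - _ - _ =
    F h (SStar.tl0 G) Val z (b.rot.map fun x => (x, b.fw G x)) -
    (F h (SStar.tl0 G) Val z (k.rot.map fun x => (x, k.fw G x)) + _ + _) - _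
  push_cast
  ring

/-- `Geo` implies `Machine`. -/
theorem machine_of_geo (M : Geo) : Machine := by
  intro h hh leaf hl
  obtain ⟨Γ, G, Val, Dg, ε, H, hDg, anti, path⟩ := M h hh leaf hl
  exact ⟨fun s z => Slot.Fs G h Val s z, fun b k hbk => pair_of_geo H hDg anti path b k hbk⟩

/-- `Geo` implies Harary–Hill for arc diagrams of complete graphs, `n` even. -/
theorem hh_of_geo (M : Geo) {p : ℕ} (hp : 3 ≤ p) (C : CompDiag (2 * p)) :
    p * (p - 1) ^ 2 * (p - 2) ≤ C.total := by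
  obtain ⟨Γ, G, Val, Dg, ε, H, hDg, anti, path⟩ :=
    M p (by omega) C.pos fun _ _ h => C.pos_inj h
  exact Slot.hh_of_core hp C G H hDg fun b k hbk => pair_of_geo H hDg anti path b k hbk

theorem hill_two_mul {p : ℕ} (hp : 2 ≤ p) : 4 * Even.hill (2 * p) ≤ p * (p - 1) ^ 2 * (p - 2) := by
  unfold Even.hill
  rw [show 2 * p / 2 = p by omega, show (2 * p - 1) / 2 = p - 1 by omega,
    show (2 * p - 2) / 2 = p - 1 by omega, show (2 * p - 3) / 2 = p - 2 by omega]
  refine (Nat.mul_div_le _ _).trans (le_of_eq ?_)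
  ring

/-- **Harary–Hill for even `n`.** -/
theorem hill_even (M : Geo) {n : ℕ} (hn : _root_.Even n) (D : Drawing (⊤ : SimpleGraph (Fin n))) :
    Even.hill n ≤ D.crossings := by
  obtain ⟨p, rfl⟩ := hn
  rcases Nat.lt_or_ge p 3 with hp | hp
  · have : Even.hill (p + p) = 0 := by
      unfold Even.hill
      interval_cases p <;> norm_num
    omega
  obtain ⟨C, hC⟩ := exists_compDiag (p + p) D
  have key : ∀ (m : ℕ) (C : CompDiag m), m = 2 * p → 4 * Even.hill m ≤ C.total := by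
    intro m C hm
    subst hm
    exact (hill_two_mul (by omega)).trans (hh_of_geo M hp C)
  have := key _ C (by ring)
  omega

end Vale.Agent.P040.Bp
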