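import Vale.Agent.P040.H84.Core
import Vale.Agent.P040.H198.HHTop
import Vale.Agent.P040.H242.SlotWord

/-!
# Harary–Hill for even `n` from the geometric core

The own leaf of a slot star goes once around: the potential of the own leaf changes by `± (h - 1)`,
the other potentials return.
-/

set_option autoImplicit false

namespace Vale.Agent.P040.H84

section hyp

variable {X G : Type*} [Group G]
  {h : ℕ} {T : X → G} {Val : X → G → ℝ → Prop} {Dg : List (X × G) → Prop} {ε : ℝ}
  (H : CoreHyp h T Val Dg ε)

include H

theorem CoreHyp.val_take {p : X × G} {M : List (X × G)} (hD : Dg (p :: M)) :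
    ∃ v, Val p.1 (p.2⁻¹ * pr T (M.take (h - 1)) * p.2) v := by
  have h1 := H.len hD
  have h2 := H.two_le
  rw [List.length_cons] at h1
  obtain ⟨b, M1, rfl⟩ : ∃ b M1, M = b :: M1 := by
    cases M with
    | nil => rw [List.length_nil] at h1; omega
    | cons b M1 => exact ⟨b, M1, rfl⟩
  rw [List.length_cons] at h1
  obtain ⟨c, L, hL⟩ : ∃ c L, M1.drop (h - 2) = c :: L := by
    cases hd : M1.drop (h - 2) with
    | nil =>
      have := congrArg List.length hd
      rw [List.length_drop, List.length_nil] at this
      omega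
    | cons c L => exact ⟨c, L, rfl⟩
  have h3 : (M1.take (h - 2)).length = h - 2 := by rw [List.length_take]; omega
  have e : M1 = M1.take (h - 2) ++ c :: L := by rw [← hL, List.take_append_drop]
  have hD' : Dg (p :: ([] ++ b :: (M1.take (h - 2) ++ c :: L))) := by
    rw [← e]
    exact hD
  obtain ⟨c1, c2, a2, a3, b3, b1, -, -, -, ha3, -⟩ := H.tri hD' (by rw [List.length_nil, h3]; omega)
  refine ⟨a3, ?_⟩
  rw [show h - 1 = (h - 2) + 1 by omega, List.take_succ_cons, pr_cons]
  simpa using ha3

theorem CoreHyp.val_drop {p : X × G} {M : List (X × G)} (hD : Dg (p :: M)) :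
    ∃ v, Val p.1 (p.2⁻¹ * pr T (M.drop h) * p.2) v := by
  have h1 := H.len hD
  have h2 := H.two_le
  rw [List.length_cons] at h1
  obtain ⟨a, N, hN⟩ : ∃ a N, M.drop (h - 1) = a :: N := by
    cases hd : M.drop (h - 1) with
    | nil =>
      have := congrArg List.length hd
      rw [List.length_drop, List.length_nil] at this
      omega
    | cons a N => exact ⟨a, N, rfl⟩
  have hNl := congrArg List.length hN
  rw [List.length_drop, List.length_cons] at hNl
  have e1 : M.drop h = N := by
    have : M.drop h = (M.drop (h - 1)).drop 1 := by rw [List.drop_drop]; congr 1; omega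
    rw [this, hN, List.drop_one, List.tail_cons]
  obtain ⟨b, B, rfl⟩ : ∃ b B, N = b :: B := by
    cases N with
    | nil => rw [List.length_nil] at hNl; omega
    | cons b B => exact ⟨b, B, rfl⟩
  rw [List.length_cons] at hNl
  have e : M = M.take (h - 1) ++ a :: b :: B := by rw [← hN, List.take_append_drop]
  have hD1 : Dg ((p :: M.take (h - 1)) ++ (a :: b :: B)) := by
    rw [List.cons_append, ← e]
    exact hD
  have hD2 := H.rotn hD1
  have hD3 : Dg (a :: ([] ++ b :: (B ++ p :: M.take (h - 1)))) := by simpa using hD2
  obtain ⟨c1, c2, a2, a3, b3, b1, hc1, -⟩ := H.tri hD3 (by rw [List.length_nil]; omega)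
  refine ⟨c1, ?_⟩
  rw [e1, pr_cons]
  simpa using hc1

theorem CoreHyp.F_rotn {M N : List (X × G)} (hD : Dg (M ++ N)) (z : X) :
    F h T Val z (N ++ M) = F h T Val z (M ++ N) := by
  have h1 := H.F_rotate_n hD M.length z
  rwa [List.rotate_append_length_eq] at h1

end hyp

section conj

variable {X G : Type*} [Group G]

/-- left multiplication of the paths -/
def lm (t : G) (L : List (X × G)) : List (X × G) := L.map fun p => (p.1, t * p.2)

@[simp] theorem lm_nil (t : G) : lm t ([] : List (X × G)) = [] := rfl

@[simp] theorem lm_cons (t : G) (p : X × G) (L : List (X × G)) :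
    lm t (p :: L) = (p.1, t * p.2) :: lm t L := rfl

theorem lm_append (t : G) (L M : List (X × G)) : lm t (L ++ M) = lm t L ++ lm t M := by
  unfold lm
  rw [List.map_append]

theorem lm_fst (t : G) (L : List (X × G)) : (lm t L).map Prod.fst = L.map Prod.fst := by
  unfold lm
  rw [List.map_map]
  rfl

theorem pr_take_congr {T : X → G} {L L' : List (X × G)} (t : G)
    (h : L'.map (gg T) = (L.map (gg T)).map fun g => t * g * t⁻¹) (n : ℕ) :
    pr T (L'.take n) = t * pr T (L.take n) * t⁻¹ := by
  unfold pr
  rw [List.map_take, List.map_take, h, ← List.map_take]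
  generalize (L.map (gg T)).take n = M
  induction M with
  | nil => simp
  | cons g M ih => rw [List.map_cons, List.prod_cons, List.prod_cons, ih]; group

theorem pr_drop_congr {T : X → G} {L L' : List (X × G)} (t : G)
    (h : L'.map (gg T) = (L.map (gg T)).map fun g => t * g * t⁻¹) (n : ℕ) :
    pr T (L'.drop n) = t * pr T (L.drop n) * t⁻¹ := by
  unfold pr
  rw [List.map_drop, List.map_drop, h, ← List.map_drop]
  generalize (L.map (gg T)).drop n = M
  induction M with
  | nil => simp
  | cons g M ih => rw [List.map_cons, List.prod_cons, List.prod_cons, ih]; group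

theorem gg_lm (T : X → G) (t : G) (L : List (X × G)) :
    (lm t L).map (gg T) = (L.map (gg T)).map fun g => t * g * t⁻¹ := by
  unfold lm
  rw [List.map_map, List.map_map]
  apply List.map_congr_left
  intro p _
  exact gg_conj T p t

end conj

section own

variable {X G : Type*} [Group G]
  {h : ℕ} {T : X → G} {Val : X → G → ℝ → Prop} {Dg : List (X × G) → Prop} {ε : ℝ}
  (H : CoreHyp h T Val Dg ε)

include H

theorem CoreHyp.own_loop {b : X} {L : List (X × G)} (h1 : Dg ((b, 1) :: lm (T b) L)) :
    F h T Val b ((b, 1) :: lm (T b) L) = F h T Val b ((b, 1) :: L) - ε * (h - 1) := by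
  have e1 : F h T Val b ([] ++ (b, 1) :: lm (T b) L) = _ := F_eq h T Val (by simp)
  have e0 : F h T Val b ([] ++ (b, 1) :: L) = _ := F_eq h T Val (by simp)
  rw [List.nil_append, List.append_nil] at e1 e0
  rw [e1, e0]
  obtain ⟨v, hv⟩ := H.val_take h1
  obtain ⟨w, hw⟩ := H.val_drop h1
  have hv' := H.twist hv
  have hw' := H.twist hw
  simp only [inv_one, one_mul, mul_one] at hv hw hv' hw'
  have t1 := pr_take_congr (T b) (gg_lm T (T b) L) (h - 1)
  have t2 := pr_drop_congr (T b) (gg_lm T (T b) L) h
  have hv'' : Val b (pr T (L.take (h - 1))) (v + ε * (h - 1)) := by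
    rw [t1] at hv'
    have e : (T b)⁻¹ * (T b * pr T (L.take (h - 1)) * (T b)⁻¹) * T b = pr T (L.take (h - 1)) := by
      group
    rwa [e] at hv'
  have hw'' : Val b (pr T (L.drop h)) (w + ε * (h - 1)) := by
    rw [t2] at hw'
    have e : (T b)⁻¹ * (T b * pr T (L.drop h) * (T b)⁻¹) * T b = pr T (L.drop h) := by
      group
    rwa [e] at hw'
  unfold Fp
  simp only [inv_one, one_mul, mul_one]
  rw [H.vv_eq hv, H.vv_eq hw, H.vv_eq hv'', H.vv_eq hw'']
  ring

omit H in
theorem other_loop {b z : X} (hz : z ≠ b) {L : List (X × G)} :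
    F h T Val z ((b, 1) :: lm (T b) L) = F h T Val z ((b, 1) :: L) := by
  classical
  by_cases hzL : z ∈ L.map Prod.fst
  · -- the first occurrence
    obtain ⟨A, w, B, rfl, hA⟩ : ∃ (A : List (X × G)) (w : G) (B : List (X × G)),
        L = A ++ (z, w) :: B ∧ z ∉ A.map Prod.fst := by
      induction L with
      | nil => simp at hzL
      | cons p L ih =>
        by_cases hp : p.1 = z
        · exact ⟨[], p.2, L, by rw [← hp]; rfl, by simp⟩
        · rw [List.map_cons, List.mem_cons] at hzL
          obtain ⟨A, w, B, rfl, hA⟩ := ih (hzL.resolve_left fun e => hp e.symm)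
          refine ⟨p :: A, w, B, rfl, ?_⟩
          rw [List.map_cons, List.mem_cons]
          rintro (h1 | h1)
          · exact hp h1.symm
          · exact hA h1
    have e0 := F_eq h T Val (z := z) (w := w) (A := (b, 1) :: A) (B := B) (by
      rw [List.map_cons, List.mem_cons]
      rintro (h1 | h1)
      · exact hz h1
      · exact hA h1)
    have e1 := F_eq h T Val (z := z) (w := T b * w) (A := (b, 1) :: lm (T b) A) (B := lm (T b) B) (by
      rw [List.map_cons, List.mem_cons, lm_fst]
      rintro (h1 | h1)
      · exact hz h1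
      · exact hA h1)
    rw [lm_append, lm_cons]
    rw [List.cons_append] at e0 e1
    rw [e0, e1]
    have hg : (lm (T b) B ++ (b, 1) :: lm (T b) A).map (gg T) =
        ((B ++ (b, 1) :: A).map (gg T)).map fun g => T b * g * (T b)⁻¹ := by
      rw [List.map_append, List.map_cons, gg_lm, gg_lm, List.map_append, List.map_cons,
        List.map_append, List.map_cons]
      congr 2
      simp only [gg]
      group
    unfold Fp
    rw [pr_take_congr (T b) hg, pr_drop_congr (T b) hg]
    congr 2
    · congr 1
      group
    · congr 1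
      group
  · rw [F_of_notMem, F_of_notMem]
    · rw [List.map_cons, List.mem_cons]
      rintro (h1 | h1)
      · exact hz h1
      · exact hzL h1
    · rw [List.map_cons, List.mem_cons, lm_fst]
      rintro (h1 | h1)
      · exact hz h1
      · exact hzL h1

end own

end Vale.Agent.P040.H84

namespace Vale.Agent.P040.Slot

open Topo HH Finset Pst H84

section slots

variable {n : ℕ} {C : CompDiag n} {b : Fin n}

theorem rl_pairwise : (rl C b).Pairwise fun x y => ang C b x < ang C b y := by
  rw [List.pairwise_iff_getElem]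
  intro i j hi hj hij
  have h1 := rl_get C hi
  have h2 := rl_get C hj
  rw [← rk_lt_iff C h1.1 h2.1, h1.2, h2.2]
  exact hij

theorem rotE_eq_rl : rotE C b = rl C b := by
  have hperm : (rotE C b).Perm (rl C b) :=
    (List.perm_ext_iff_of_nodup rotE_nodup (rl_nodup C b)).2 fun x => by rw [mem_rotE, mem_rl]
  exact hperm.eq_of_pairwise (fun a c _ _ h1 h2 => absurd h1 (not_lt.2 h2.le))
    rotE_pairwise rl_pairwise

theorem bef_length {q : ℕ} (hq : q ≤ n - 1) : (cutS C b q).bef.length = q := by
  have h0 := (cutS C b q).bef_aft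
  rw [rotE_eq_rl] at h0
  have hl := congrArg List.length h0
  rw [List.length_append, rl_length] at hl
  rcases lt_trichotomy (cutS C b q).bef.length q with h | h | h
  · exfalso
    obtain ⟨x, N, hN⟩ : ∃ x N, (cutS C b q).aft = x :: N := by
      cases ha : (cutS C b q).aft with
      | nil => rw [ha, List.length_nil] at hl; omega
      | cons x N => exact ⟨x, N, rfl⟩
    have hx : x ∈ (cutS C b q).aft := by rw [hN]; exact List.mem_cons_self
    have h1 := (cutS C b q).mem_aft.1 hx
    have hi : (cutS C b q).bef.length < (rl C b).length := by rw [rl_length]; omega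
    have h2 := rl_get C hi
    have h3 : (rl C b)[(cutS C b q).bef.length] = x := by
      simp only [← h0, hN]
      rw [List.getElem_append_right (le_refl _)]
      simp
    rw [h3] at h2
    exact h1.2 (show rk C b x < q by omega)
  · exact h
  · exfalso
    have hi : q < (rl C b).length := by rw [rl_length]; omega
    have h2 := rl_get C hi
    have h3 : (rl C b)[q] = (cutS C b q).bef[q] := by
      simp only [← h0]
      rw [List.getElem_append_left h]
    have h4 : (cutS C b q).bef[q] ∈ (cutS C b q).bef := List.getElem_mem h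
    have h5 := ((cutS C b q).mem_bef.1 h4).2
    have h6 : rk C b ((cutS C b q).bef[q]) < q := h5
    rw [← h3, h2.2] at h6
    exact lt_irrefl _ h6

theorem bef_cutS {q : ℕ} (hq : q ≤ n - 1) : (cutS C b q).bef = (rl C b).take q := by
  have h0 := (cutS C b q).bef_aft
  rw [rotE_eq_rl] at h0
  rw [← h0, take_eq' (bef_length hq)]
where
  take_eq' {A B : List (Fin n)} {q : ℕ} (h : A.length = q) : (A ++ B).take q = A := by
    rw [← h, List.take_left]

theorem aft_cutS {q : ℕ} (hq : q ≤ n - 1) : (cutS C b q).aft = (rl C b).drop q := by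
  have h0 := (cutS C b q).bef_aft
  rw [rotE_eq_rl] at h0
  rw [← h0, drop_eq' (bef_length hq)]
where
  drop_eq' {A B : List (Fin n)} {q : ℕ} (h : A.length = q) : (A ++ B).drop q = B := by
    rw [← h, List.drop_left]

theorem sim_B {S S' : Slt C b} (h : S.Sim S') {x : Fin n} (hx : x ≠ b) : x ∈ S.B ↔ x ∈ S'.B := by
  have := h x hx
  unfold Slt.wr at this
  tauto

theorem sim_bef {S S' : Slt C b} (h : S.Sim S') : S.bef = S'.bef := by
  classical
  unfold Slt.bef
  apply List.filter_congr
  intro x hx
  rw [decide_eq_decide]
  exact sim_B h (mem_rotE.1 hx)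

theorem sim_aft {S S' : Slt C b} (h : S.Sim S') : S.aft = S'.aft := by
  classical
  unfold Slt.aft
  apply List.filter_congr
  intro x hx
  rw [decide_eq_decide]
  exact not_congr (sim_B h (mem_rotE.1 hx))

end slots

/-- the potential of a spine star -/
noncomputable def Fs {m : ℕ} {leaf : Fin m → ℝ} {Γ : Type*} (G : Gaps leaf Γ) (h : ℕ)
    (Val : Fin m → FreeGroup Γ → ℝ → Prop) (s : Bp.SStar leaf) (z : Fin m) : ℝ :=
  F h (Bp.SStar.tl0 G) Val z (s.rot.map fun x => (x, s.fw G x))

/-- **Harary–Hill for even `n`** from the geometric core on spine stars. -/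
theorem hh_of_core {p : ℕ} (hp : 3 ≤ p) (C : CompDiag (2 * p)) {Γ : Type*} (G : Gaps C.pos Γ)
    {Val : Fin (2 * p) → FreeGroup Γ → ℝ → Prop} {Dg : List (Fin (2 * p) × FreeGroup Γ) → Prop}
    {ε' : ℝ} (H : CoreHyp p (Bp.SStar.tl0 G) Val Dg ε')
    (hDg : ∀ s : Bp.SStar C.pos, Dg (s.rot.map fun x => (x, s.fw G x)))
    (hpair : ∀ b k : Bp.SStar C.pos, b.GP k → ∃ q : Fin (2 * p) → ℤ,
      ∑ z, |Fs G p Val b z - Fs G p Val k z - ((p : ℝ) - 1) / 2 - ((p : ℝ) - 1) * q z| ≤ b.cr k) :
    p * (p - 1) ^ 2 * (p - 2) ≤ C.total := by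
  classical
  obtain ⟨ε, hε⟩ := exists_goodE C
  refine hh_top hp C hε (Fs G p Val) hpair ?_ ?_
  · intro b S S' hS z
    refine ⟨0, ?_⟩
    unfold Fs
    rw [S.star_framed G hε, S'.star_framed G hε, sim_bef hS, sim_aft hS]
    push_cast
    ring
  · intro b
    have hp' : (3 : ℝ) ≤ p := by exact_mod_cast hp
    set w : Fin (2 * p) → Fin (2 * p) × FreeGroup Γ := fun x => (x, fw0 G b x) with hw
    set w' : Fin (2 * p) → Fin (2 * p) × FreeGroup Γ := fun x => (x, ow G b * fw0 G b x) with hw'
    have how : ow G b = Bp.SStar.tl0 G b := rfl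
    -- the framed lists
    have hL : ∀ q ≤ 2 * p - 1, (((cutS C b q).star hε).rot.map
        fun x => (x, ((cutS C b q).star hε).fw G x)) =
        ((rl C b).take q).map w' ++ (b, 1) :: ((rl C b).drop q).map w := by
      intro q hq
      rw [(cutS C b q).star_framed G hε, bef_cutS hq, aft_cutS hq]
    have hD : ∀ q ≤ 2 * p - 1, Dg (((rl C b).take q).map w' ++ (b, 1) :: ((rl C b).drop q).map w) := by
      intro q hq
      rw [← hL q hq]
      exact hDg _
    refine ⟨fun q z => F p (Bp.SStar.tl0 G) Val z
      (((rl C b).take q).map w' ++ (b, 1) :: ((rl C b).drop q).map w), ?_, ?_, ?_, ?_⟩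
    · intro q hq z
      refine ⟨0, ?_⟩
      unfold Fs
      rw [hL q hq]
      push_cast
      ring
    · intro q hq
      have hq' : q < (rl C b).length := by rw [rl_length]; exact hq
      set x := (rl C b)[q] with hx
      have e1 : (rl C b).drop q = x :: (rl C b).drop (q + 1) := List.drop_eq_getElem_cons hq'
      have e2 : (rl C b).take (q + 1) = (rl C b).take q ++ [x] := by
        rw [List.take_succ_eq_append_getElem hq']
      set A := ((rl C b).take q).map w' with hA
      set B := ((rl C b).drop (q + 1)).map w with hB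
      have e3 : ((rl C b).drop q).map w = w x :: B := by rw [e1, List.map_cons]
      have e4 : ((rl C b).take (q + 1)).map w' = A ++ [w' x] := by
        rw [e2, List.map_append, List.map_cons, List.map_nil]
      have d1 := hD q hq.le
      have d2 := hD (q + 1) hq
      rw [e3] at d1
      rw [e4] at d2
      have d3 := H.rotn d1
      rw [List.cons_append, List.cons_append] at d3
      have key := H.tw_le d3
      have g1 : ((w x).1, gg (Bp.SStar.tl0 G) (b, 1) * (w x).2) = w' x := by
        simp only [hw, hw', gg, inv_one, mul_one, one_mul, how]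
      rw [g1] at key
      refine le_trans (le_of_eq ?_) key
      apply Finset.sum_congr rfl
      intro z _
      simp only [e3, e4]
      have f1 := H.F_rotn d1 z
      have d2' : Dg (A ++ (w' x :: (b, 1) :: B)) := by
        rw [List.append_assoc] at d2
        exact d2
      have f2 := H.F_rotn d2' z
      rw [List.cons_append, List.cons_append] at f1 f2
      rw [show A ++ [w' x] ++ (b, 1) :: B = A ++ w' x :: (b, 1) :: B by simp, ← f1, ← f2]
    · intro z
      have e0 : (rl C b).take (2 * p - 1) = rl C b := by
        rw [List.take_of_length_le]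
        rw [rl_length]
      have e1 : (rl C b).drop (2 * p - 1) = [] := by
        rw [List.drop_eq_nil_iff, rl_length]
      have d0 := hD 0 (Nat.zero_le _)
      have d1 := hD (2 * p - 1) le_rfl
      simp only [e0, e1, List.take_zero, List.drop_zero, List.map_nil, List.nil_append] at d0 d1 ⊢
      have e2 : (rl C b).map w' = lm (Bp.SStar.tl0 G b) ((rl C b).map w) := by
        unfold lm
        rw [List.map_map]
        rfl
      have f1 := H.F_rotn d1 z
      rw [List.singleton_append] at f1
      have d2 := H.rotn d1
      rw [List.singleton_append, e2] at d2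
      rw [← f1, e2]
      by_cases hz : z = b
      · subst hz
        rcases H.sgn with hs | hs
        · refine ⟨-1, ?_⟩
          rw [H.own_loop d2, hs]
          push_cast
          ring
        · refine ⟨1, ?_⟩
          rw [H.own_loop d2, hs]
          push_cast
          ring
      · refine ⟨0, ?_⟩
        rw [other_loop hz]
        push_cast
        ring
    · have e0 : (rl C b).take (2 * p - 1) = rl C b := by
        rw [List.take_of_length_le]
        rw [rl_length]
      have e1 : (rl C b).drop (2 * p - 1) = [] := by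
        rw [List.drop_eq_nil_iff, rl_length]
      have d0 := hD 0 (Nat.zero_le _)
      have d1 := hD (2 * p - 1) le_rfl
      simp only [e0, e1, List.take_zero, List.drop_zero, List.map_nil, List.nil_append] at d0 d1 ⊢
      have e2 : (rl C b).map w' = lm (Bp.SStar.tl0 G b) ((rl C b).map w) := by
        unfold lm
        rw [List.map_map]
        rfl
      have f1 := H.F_rotn d1 b
      rw [List.singleton_append] at f1
      have d2 := H.rotn d1
      rw [List.singleton_append, e2] at d2
      rw [← f1, e2, H.own_loop d2]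
      intro h1
      have h2 : ε' * ((p : ℝ) - 1) = 0 := by linarith
      rcases mul_eq_zero.1 h2 with h3 | h3
      · rcases H.sgn with hs | hs <;> rw [hs] at h3 <;> norm_num at h3
      · linarith

end Vale.Agent.P040.Slot
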