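import Vale.Agent.P040.H837.CompDiag
import Vale.Agent.P040.H837.Ord
import Vale.Agent.P040.Bp.SStar

/-!
# Slot stars of an arc diagram of `K_n`

For a vertex `b` of an arc diagram of `K_n` and a gap of its rotation the *slot star* has its
centre on the spine, just to the right of `b`, a short arm to the own leaf `b`, and arms along the
edges `bx` to the other vertices; arms on the wrong side of the gap are wrapped around `b`.
Points carry infinitesimal shifts.
-/

set_option autoImplicit false

namespace Vale.Agent.P040.Slot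

open Topo HH Finset

/-- the shift of the right-hand copy of a path at its `j`-th point -/
noncomputable def rt (A : Arm) (j : ℕ) : ℝ := if A.page j then 1 else -1

theorem rt_succ (A : Arm) (j : ℕ) : rt A (j + 1) = - rt A j := by
  unfold rt
  rw [Arm.page_succ]
  cases A.page j <;> simp

theorem rt_ne (A : Arm) (j : ℕ) : rt A j = 1 ∨ rt A j = -1 := by
  unfold rt
  cases A.page j <;> simp

/-- parallel pieces with opposite shifts are nested -/
theorem not_LI_anti {a b : ℝ} {s t s' t' : ℝ} (hab : a ≠ b)
    (h : (s < s' ∧ t' < t) ∨ (s' < s ∧ t < t')) :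
    ¬ LI (mk a s) (mk b t) (mk a s') (mk b t') := by
  rw [LI_iff]
  unfold Bt
  simp only [mk_lt, ne_eq, mk_inj]
  grind

variable {n : ℕ} (C : CompDiag n)

/-- direction key of the arm `x` at `b` -/
noncomputable def ky (b x : Fin n) : ℝ := key (C.pos b) ((C.arm b x).p 1)

/-- place of the arm `x` in the counterclockwise rotation at `b` -/
noncomputable def ang (b x : Fin n) : ℝ :=
  if (C.arm b x).up then - Real.exp (- ky C b x) else Real.exp (- ky C b x)

/-- A slot at `b`: the arms before the slot, and the shifts of the arms. -/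
structure Slt (b : Fin n) where mkSlt ::
  /-- the arms before the slot -/
  B : Set (Fin n)
  /-- the shifts -/
  sg : Fin n → ℝ
  lower : ∀ x y, x ≠ b → y ≠ b → y ∈ B → ang C b x ≤ ang C b y → x ∈ B
  sg_mem : ∀ x, sg x = 0 ∨ sg x = 1 ∨ sg x = -1

variable {C}
variable {b k : Fin n} (S : Slt C b)

namespace Slt

/-- the arm `x` is wrapped around `b` -/
def wr (x : Fin n) : Prop := ((C.arm b x).up = true ↔ x ∉ S.B)

open Classical in
/-- the shift of the first point -/
noncomputable def st (x : Fin n) : ℝ := if S.wr x then - Real.exp (ky C b x) else 1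

open Classical in
/-- the shift of the `j`-th point of the edge `bx` -/
noncomputable def tg (x : Fin n) (j : ℕ) : ℝ :=
  if j = 0 then S.st x else if j < (C.arm b x).len then S.sg x * rt (C.arm b x) j else 0

/-- the `j`-th point of the edge `bx` with its shift -/
noncomputable def ept (x : Fin n) (j : ℕ) : LR := mk ((C.arm b x).p j) (S.tg x j)

/-- the centre -/
noncomputable def hub (_ : Slt C b) : LR := mk (C.pos b) 1

open Classical in
/-- the points of the arm `x` of the slot star -/
noncomputable def lpt (x : Fin n) (j : ℕ) : LR :=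
  if x = b then (if j = 0 then S.hub else mk (C.pos b) 0)
  else if S.wr x then (if j = 0 then S.hub else S.ept x (j - 1)) else S.ept x j

open Classical in
/-- number of extra pieces of the arm `x` -/
noncomputable def om (x : Fin n) : ℕ := if S.wr x then 1 else 0

open Classical in
/-- length of the arm `x` of the slot star -/
noncomputable def len (x : Fin n) : ℕ := if x = b then 1 else (C.arm b x).len + S.om x

open Classical in
/-- page of the first piece of the arm `x` of the slot star -/
noncomputable def up (x : Fin n) : Bool :=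
  if x = b then true else if S.wr x then !(C.arm b x).up else (C.arm b x).up

/-- the value of a shifted point -/
def val (ε : ℝ) (a : LR) : ℝ := (ofLex a).1 + ε * (ofLex a).2

theorem len_pos (x : Fin n) : 0 < S.len x := by
  unfold len
  split_ifs
  · exact one_pos
  · have := (C.arm b x).len_pos
    omega

/-- the arm `x` of the slot star -/
noncomputable def arm (ε : ℝ) (x : Fin n) : Arm where
  len := S.len x
  len_pos := S.len_pos x
  p := fun j => val ε (S.lpt x j)
  up := S.up x

/-! ### the page function and the kinds of pieces -/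

theorem page_shift {A A' : Arm} (h : A'.up = !A.up) (i : ℕ) : A'.page (i + 1) = A.page i := by
  induction i with
  | zero => rw [Arm.page_succ, Arm.page_zero, Arm.page_zero, h, Bool.not_not]
  | succ i ih => rw [Arm.page_succ, ih, Arm.page_succ]

theorem page_same {A A' : Arm} (h : A'.up = A.up) (i : ℕ) : A'.page i = A.page i := by
  unfold Arm.page
  rw [h]

/-- the two kinds of pieces -/
theorem kind (ε : ℝ) (x : Fin n) {i : ℕ} (hi : i < S.len x) :
    (x ≠ b ∧ ∃ i' < (C.arm b x).len, i = i' + S.om x ∧ S.lpt x i = S.ept x i' ∧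
      S.lpt x (i + 1) = S.ept x (i' + 1) ∧ (S.arm ε x).page i = (C.arm b x).page i') ∨
    (i = 0 ∧ S.lpt x i = S.hub ∧
      ((x = b ∧ S.lpt x (i + 1) = mk (C.pos b) 0 ∧ (S.arm ε x).page i = true) ∨
       (x ≠ b ∧ S.wr x ∧ S.lpt x (i + 1) = S.ept x 0 ∧
          (S.arm ε x).page i = !(C.arm b x).up))) := by
  classical
  by_cases hx : x = b
  · right
    have h1 : S.len x = 1 := by simp [len, hx]
    have hi0 : i = 0 := by omega
    subst hi0
    refine ⟨rfl, by simp [lpt, hx], Or.inl ⟨hx, by simp [lpt, hx], ?_⟩⟩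
    rw [Arm.page_zero]
    simp [arm, up, hx]
  · by_cases hw : S.wr x
    · have hom : S.om x = 1 := by simp [om, hw]
      have hlen : S.len x = (C.arm b x).len + 1 := by simp [len, hx, hom]
      have hup : (S.arm ε x).up = !(C.arm b x).up := by simp [arm, up, hx, hw]
      cases i with
      | zero =>
        right
        refine ⟨rfl, by simp [lpt, hx, hw], Or.inr ⟨hx, hw, by simp [lpt, hx, hw], ?_⟩⟩
        rw [Arm.page_zero, hup]
      | succ i =>
        left
        refine ⟨hx, i, by omega, by rw [hom], by simp [lpt, hx, hw], by simp [lpt, hx, hw], ?_⟩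
        exact page_shift hup i
    · have hom : S.om x = 0 := by simp [om, hw]
      have hlen : S.len x = (C.arm b x).len := by simp [len, hx, hom]
      have hup : (S.arm ε x).up = (C.arm b x).up := by simp [arm, up, hx, hw]
      left
      refine ⟨hx, i, by omega, by rw [hom]; rfl, by simp [lpt, hx, hw], by simp [lpt, hx, hw], ?_⟩
      exact page_same hup i

end Slt

/-! ### base points -/

theorem CompDiag.vtx (C : CompDiag n) {b x : Fin n} (hbx : b ≠ x) {i : ℕ}
    (hi : i ≤ (C.arm b x).len) :
    (i = 0 ∧ (C.arm b x).p i = C.pos b) ∨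
    (i = (C.arm b x).len ∧ 0 < i ∧ (C.arm b x).p i = C.pos x) ∨
    (0 < i ∧ i < (C.arm b x).len) := by
  rcases Nat.eq_zero_or_pos i with h | h
  · left
    subst h
    exact ⟨rfl, C.arm_zero b x hbx⟩
  · rcases hi.eq_or_lt with h' | h'
    · right; left
      refine ⟨h', h, ?_⟩
      rw [h']
      exact C.arm_last b x hbx
    · right; right
      exact ⟨h, h'⟩

theorem CompDiag.base_eq (C : CompDiag n) {b x k y : Fin n} (hbx : b ≠ x) (hky : k ≠ y)
    (h1 : ¬ (b = k ∧ x = y)) (h2 : ¬ (b = y ∧ x = k)) {i j : ℕ} (hi : i ≤ (C.arm b x).len)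
    (hj : j ≤ (C.arm k y).len) (h : (C.arm b x).p i = (C.arm k y).p j) :
    (i = 0 ∧ j = 0 ∧ b = k) ∨ (i = 0 ∧ j = (C.arm k y).len ∧ b = y) ∨
    (i = (C.arm b x).len ∧ j = 0 ∧ x = k) ∨
    (i = (C.arm b x).len ∧ j = (C.arm k y).len ∧ x = y) := by
  rcases CompDiag.vtx C hbx hi with ⟨a1, a2⟩ | ⟨a1, a0, a2⟩ | ⟨a1, a2⟩
  · rcases CompDiag.vtx C hky hj with ⟨c1, c2⟩ | ⟨c1, c0, c2⟩ | ⟨c1, c2⟩
    · left
      exact ⟨a1, c1, C.pos_inj (by rw [← a2, ← c2, h])⟩
    · right; left
      exact ⟨a1, c1, C.pos_inj (by rw [← a2, ← c2, h])⟩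
    · exact absurd (h.symm.trans a2) (C.int_ne_pos k y hky j c1 c2 b)
  · rcases CompDiag.vtx C hky hj with ⟨c1, c2⟩ | ⟨c1, c0, c2⟩ | ⟨c1, c2⟩
    · right; right; left
      exact ⟨a1, c1, C.pos_inj (by rw [← a2, ← c2, h])⟩
    · right; right; right
      exact ⟨a1, c1, C.pos_inj (by rw [← a2, ← c2, h])⟩
    · exact absurd (h.symm.trans a2) (C.int_ne_pos k y hky j c1 c2 x)
  · rcases CompDiag.vtx C hky hj with ⟨c1, c2⟩ | ⟨c1, c0, c2⟩ | ⟨c1, c2⟩
    · exact absurd (h.trans c2) (C.int_ne_pos b x hbx i a1 a2 k)
    · exact absurd (h.trans c2) (C.int_ne_pos b x hbx i a1 a2 y)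
    · exact absurd h (C.int_disj b x k y hbx hky h1 h2 i j a1 a2 c1 c2)

theorem p_ne_pos (C : CompDiag n) {b x : Fin n} (hbx : b ≠ x) {i : ℕ} (h0 : 0 < i)
    (hi : i ≤ (C.arm b x).len) : (C.arm b x).p i ≠ C.pos b := by
  intro h
  rcases CompDiag.vtx C hbx hi with ⟨a1, a2⟩ | ⟨a1, a0, a2⟩ | ⟨a1, a2⟩
  · omega
  · exact hbx (C.pos_inj (by rw [← h, a2]))
  · exact C.int_ne_pos b x hbx i a1 a2 b h

theorem p_ne_pos' (C : CompDiag n) {b x v : Fin n} (hbx : b ≠ x) (hv : v ≠ b) (hv' : v ≠ x)
    {i : ℕ} (hi : i ≤ (C.arm b x).len) : (C.arm b x).p i ≠ C.pos v := by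
  intro h
  rcases CompDiag.vtx C hbx hi with ⟨a1, a2⟩ | ⟨a1, a0, a2⟩ | ⟨a1, a2⟩
  · exact hv (C.pos_inj (by rw [← h, a2]))
  · exact hv' (C.pos_inj (by rw [← h, a2]))
  · exact C.int_ne_pos b x hbx i a1 a2 v h

theorem p_one_inj (C : CompDiag n) {b x y : Fin n} (hbx : b ≠ x) (hby : b ≠ y) (hxy : x ≠ y) :
    (C.arm b x).p 1 ≠ (C.arm b y).p 1 := by
  intro h
  have l1 := (C.arm b x).len_pos
  have l2 := (C.arm b y).len_pos
  rcases CompDiag.base_eq C hbx hby (fun e => hxy e.2) (fun e => hby e.1) (i := 1) (j := 1)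
    (by omega) (by omega) h with h1 | h1 | h1 | h1
  · omega
  · exact hby h1.2.2
  · exact hbx h1.2.2.symm
  · exact hxy h1.2.2

theorem ky_inj (C : CompDiag n) {b x y : Fin n} (hbx : b ≠ x) (hby : b ≠ y)
    (h : ky C b x = ky C b y) : x = y := by
  by_contra hxy
  apply p_one_inj C hbx hby hxy
  unfold ky key at h
  have := inv_injective h
  linarith

theorem ang_inj (C : CompDiag n) {b x y : Fin n} (hbx : b ≠ x) (hby : b ≠ y)
    (h : ang C b x = ang C b y) : x = y := by
  unfold ang at h
  have e1 := Real.exp_pos (- ky C b x)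
  have e2 := Real.exp_pos (- ky C b y)
  apply ky_inj C hbx hby
  split_ifs at h
  · have := Real.exp_injective (neg_injective h)
    linarith
  · linarith
  · linarith
  · have := Real.exp_injective h
    linarith

namespace Slt

variable {S}

theorem wr_up {x y : Fin n} (hx : x ≠ b) (hy : y ≠ b) (h1 : S.wr x) (h2 : S.wr y) :
    (C.arm b x).up = (C.arm b y).up := by
  unfold wr at h1 h2
  have e1 := Real.exp_pos (- ky C b x)
  have e2 := Real.exp_pos (- ky C b y)
  by_cases c1 : (C.arm b x).up = true
  · by_cases c2 : (C.arm b y).up = true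
    · rw [c1, c2]
    · exfalso
      have hyB : y ∈ S.B := by
        by_contra h
        exact c2 (h2.2 h)
      apply h1.1 c1
      apply S.lower x y hx hy hyB
      unfold ang
      rw [if_pos c1, if_neg c2]
      linarith
  · by_cases c2 : (C.arm b y).up = true
    · exfalso
      have hxB : x ∈ S.B := by
        by_contra h
        exact c1 (h1.2 h)
      apply h2.1 c2
      apply S.lower y x hy hx hxB
      unfold ang
      rw [if_pos c2, if_neg c1]
      linarith
    · rw [Bool.not_eq_true] at c1 c2
      rw [c1, c2]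

/-- the order of the shifts at the centre is opposite to the order of the keys -/
theorem st_key {x y : Fin n} (hx : x ≠ b) (hy : y ≠ b)
    (hup : (C.arm b x).up = (C.arm b y).up) (h : S.st x < S.st y) :
    ky C b y < ky C b x := by
  classical
  unfold st at h
  have e1 := Real.exp_pos (ky C b x)
  have e2 := Real.exp_pos (ky C b y)
  by_cases c1 : S.wr x
  · rw [if_pos c1] at h
    by_cases c2 : S.wr y
    · rw [if_pos c2] at h
      exact Real.exp_lt_exp.1 (by linarith)
    · unfold wr at c1 c2
      by_cases u : (C.arm b x).up = true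
      · have hxB : x ∉ S.B := c1.1 u
        have hyB : y ∈ S.B := by
          by_contra hyB
          exact c2 ⟨fun _ => hyB, fun _ => by rw [← hup]; exact u⟩
        have hlt : ang C b y < ang C b x := by
          by_contra hle
          exact hxB (S.lower x y hx hy hyB (not_lt.1 hle))
        unfold ang at hlt
        rw [if_pos u, if_pos (by rw [← hup]; exact u)] at hlt
        have := Real.exp_lt_exp.1 (show Real.exp (- ky C b x) < Real.exp (- ky C b y) by linarith)
        linarith
      · have hxB : x ∈ S.B := by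
          by_contra hxB
          exact u (c1.2 hxB)
        have hyB : y ∉ S.B := by
          intro hyB
          apply c2
          constructor
          · intro h'
            rw [← hup] at h'
            exact absurd h' u
          · intro h'
            exact absurd hyB h'
        have hlt : ang C b x < ang C b y := by
          by_contra hle
          exact hyB (S.lower y x hy hx hxB (not_lt.1 hle))
        unfold ang at hlt
        rw [if_neg u, if_neg (by rw [← hup]; exact u)] at hlt
        have := Real.exp_lt_exp.1 hlt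
        linarith
  · rw [if_neg c1] at h
    by_cases c2 : S.wr y
    · rw [if_pos c2] at h
      linarith
    · rw [if_neg c2] at h
      linarith

theorem ept_zero {x : Fin n} (hx : x ≠ b) : S.ept x 0 = mk (C.pos b) (S.st x) := by
  unfold ept tg
  rw [C.arm_zero b x hx.symm]
  simp

theorem st_ne_zero (x : Fin n) : S.st x ≠ 0 := by
  classical
  unfold st
  have := Real.exp_pos (ky C b x)
  split_ifs
  · linarith
  · exact one_ne_zero

/-- pieces of two edges at `b` do not interleave -/
theorem nc_edge {x y : Fin n} (hx : x ≠ b) (hy : y ≠ b) {i j : ℕ} (hi : i < (C.arm b x).len)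
    (hj : j < (C.arm b y).len) (hp : (C.arm b x).page i = (C.arm b y).page j) :
    ¬ LI (S.ept x i) (S.ept x (i + 1)) (S.ept y j) (S.ept y (j + 1)) := by
  by_cases hxy : x = y
  · subst hxy
    by_cases hij : i = j
    · subst hij
      exact not_LI_same _ _ _
    · have hsj : ∀ a c, a ≤ (C.arm b x).len → c ≤ (C.arm b x).len → a ≠ c →
          (C.arm b x).p a ≠ (C.arm b x).p c :=
        fun a c ha hc hac h => hac (C.self_inj b x hx.symm a ha c hc h)
      have h1 : i + 1 ≠ j := by
        rintro rfl
        rw [Arm.page_succ] at hp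
        simp at hp
      have h2 : i ≠ j + 1 := by
        rintro rfl
        rw [Arm.page_succ] at hp
        simp at hp
      unfold ept
      rw [LI_base _ _ _ _ (hsj _ _ (by omega) (by omega) hij)
        (hsj _ _ (by omega) (by omega) h2) (hsj _ _ (by omega) (by omega) h1)
        (hsj _ _ (by omega) (by omega) (by omega))]
      intro h
      exact C.nc b x b x hx.symm hx.symm (Or.inl rfl) i j hi hj ⟨hp, h⟩
  · have hb : ∀ a c, a ≤ (C.arm b x).len → c ≤ (C.arm b y).len → ¬ (a = 0 ∧ c = 0) →
        (C.arm b x).p a ≠ (C.arm b y).p c := by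
      intro a c ha hc hac h
      rcases CompDiag.base_eq C hx.symm hy.symm (fun e => hxy e.2) (fun e => hy e.1.symm)
        ha hc h with h1 | h1 | h1 | h1
      · exact hac ⟨h1.1, h1.2.1⟩
      · exact hy h1.2.2.symm
      · exact hx h1.2.2
      · exact hxy h1.2.2
    by_cases h0 : i = 0 ∧ j = 0
    · obtain ⟨rfl, rfl⟩ := h0
      rw [Arm.page_zero, Arm.page_zero] at hp
      rw [ept_zero hx, ept_zero hy]
      unfold ept
      have q1 : C.pos b ≠ (C.arm b x).p (0 + 1) :=
        (p_ne_pos C hx.symm (by omega) (by omega)).symm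
      have q2 : C.pos b ≠ (C.arm b y).p (0 + 1) :=
        (p_ne_pos C hy.symm (by omega) (by omega)).symm
      have q3 := hb (0 + 1) (0 + 1) (by omega) (by omega) (by omega)
      rcases lt_trichotomy (S.st x) (S.st y) with h | h | h
      · rw [LI_vertex _ _ h q1 q2 q3]
        have := st_key hx hy hp h
        unfold ky at this
        exact not_lt.2 this.le
      · rw [h]
        exact not_LI_same _ _ _
      · rw [LI_comm, LI_vertex _ _ h q2 q1 q3.symm]
        have := st_key hy hx hp.symm h
        unfold ky at this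
        exact not_lt.2 this.le
    · unfold ept
      rw [LI_base _ _ _ _ (hb _ _ (by omega) (by omega) h0)
        (hb _ _ (by omega) (by omega) (by omega)) (hb _ _ (by omega) (by omega) (by omega))
        (hb _ _ (by omega) (by omega) (by omega))]
      intro h
      exact C.nc b x b y hx.symm hy.symm (Or.inl rfl) i j hi hj ⟨hp, h⟩

/-- a small piece at `b` and a piece of an edge at `b` -/
theorem nc_small_short {y : Fin n} (hy : y ≠ b) {j : ℕ} (hj : j < (C.arm b y).len) :
    ¬ LI S.hub (mk (C.pos b) 0) (S.ept y j) (S.ept y (j + 1)) := by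
  classical
  unfold hub
  have q2 : C.pos b ≠ (C.arm b y).p (j + 1) := (p_ne_pos C hy.symm (by omega) (by omega)).symm
  rcases Nat.eq_zero_or_pos j with h0 | h0
  · subst h0
    rw [ept_zero hy]
    unfold ept
    by_cases hw : S.wr y
    · have hs : S.st y < 0 := by
        unfold st
        rw [if_pos hw]
        have := Real.exp_pos (ky C b y)
        linarith
      rw [LI_comm]
      exact not_LI_out _ (by linarith) hs q2
    · have hs : S.st y = 1 := by
        unfold st
        rw [if_neg hw]
      rw [hs]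
      exact not_LI_same _ _ _
  · unfold ept
    exact not_LI_small _ _ _ _ (p_ne_pos C hy.symm h0 hj.le).symm q2

theorem nc_small_wrap {x y : Fin n} (hx : x ≠ b) (hy : y ≠ b) (hw : S.wr x) {j : ℕ}
    (hj : j < (C.arm b y).len) (hp : (!(C.arm b x).up) = (C.arm b y).page j) :
    ¬ LI S.hub (S.ept x 0) (S.ept y j) (S.ept y (j + 1)) := by
  classical
  rw [ept_zero hx]
  unfold hub
  have q2 : C.pos b ≠ (C.arm b y).p (j + 1) := (p_ne_pos C hy.symm (by omega) (by omega)).symm
  rcases Nat.eq_zero_or_pos j with h0 | h0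
  · subst h0
    rw [Arm.page_zero] at hp
    rw [ept_zero hy]
    unfold ept
    by_cases hw' : S.wr y
    · exfalso
      have := wr_up hx hy hw hw'
      rw [this] at hp
      simp at hp
    · have hs : S.st y = 1 := by
        unfold st
        rw [if_neg hw']
      rw [hs]
      exact not_LI_same _ _ _
  · unfold ept
    exact not_LI_small _ _ _ _ (p_ne_pos C hy.symm h0 hj.le).symm q2

/-- no two pieces of the slot star interleave -/
theorem nc_lpt (ε : ℝ) {x y : Fin n} {i j : ℕ} (hi : i < S.len x) (hj : j < S.len y)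
    (hp : (S.arm ε x).page i = (S.arm ε y).page j) :
    ¬ LI (S.lpt x i) (S.lpt x (i + 1)) (S.lpt y j) (S.lpt y (j + 1)) := by
  rcases S.kind ε x hi with ⟨hx, i', hi', -, e1, e2, e3⟩ | ⟨hi0, e1, hs⟩
  · rcases S.kind ε y hj with ⟨hy, j', hj', -, d1, d2, d3⟩ | ⟨hj0, d1, ht⟩
    · rw [e1, e2, d1, d2]
      exact nc_edge hx hy hi' hj' (by rw [← e3, ← d3, hp])
    · rw [e1, e2, d1, LI_comm]
      rcases ht with ⟨hyb, d2, d3⟩ | ⟨hyb, hw, d2, d3⟩
      · rw [d2]
        exact nc_small_short hx hi'
      · rw [d2]
        exact nc_small_wrap hyb hx hw hi' (by rw [← d3, ← e3, hp])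
  · rcases S.kind ε y hj with ⟨hy, j', hj', -, d1, d2, d3⟩ | ⟨hj0, d1, ht⟩
    · rw [e1, d1, d2]
      rcases hs with ⟨hxb, e2, e3⟩ | ⟨hxb, hw, e2, e3⟩
      · rw [e2]
        exact nc_small_short hy hj'
      · rw [e2]
        exact nc_small_wrap hxb hy hw hj' (by rw [← d3, ← e3, hp])
    · rw [e1, d1]
      exact not_LI_same _ _ _

end Slt

end Vale.Agent.P040.Slot
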