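import Vale.Agent.P040.H198.SlotStar

/-!
# Slot stars: crossings of the two stars of a lane
-/

set_option autoImplicit false

namespace Vale.Agent.P040.Slot

open Topo HH Finset

variable {n : ℕ} {C : CompDiag n} {b k : Fin n}

section cross

variable (hbk : b ≠ k) (hkb : k ≠ b) {s : ℝ} (hs : s = 1 ∨ s = -1)


/-- the last piece of `kb` lies in the page of the first piece of `bk` -/
theorem page_last (C : CompDiag n) (hbk : b ≠ k) :
    (C.arm k b).page ((C.arm k b).len - 1) = (C.arm b k).up := by
  have h1 := C.rev_len k b hbk.symm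
  have h2 := (C.arm b k).len_pos
  have h := C.rev_page b k hbk ((C.arm k b).len - 1) (by omega)
  rw [h, ← Arm.page_zero]
  congr 1
  omega

/-- a small piece at `b` and a piece of an edge at `k` -/
theorem x_small (S' : Slt C k) {x y : Fin n} {i j : ℕ} {ε : ℝ}
    (hi : i < (lane C hbk s hs).len x)
    (hsm : i = 0 ∧ (lane C hbk s hs).lpt x i = (lane C hbk s hs).hub ∧
      ((x = b ∧ (lane C hbk s hs).lpt x (i + 1) = mk (C.pos b) 0 ∧
        ((lane C hbk s hs).arm ε x).page i = true) ∨
       (x ≠ b ∧ (lane C hbk s hs).wr x ∧ (lane C hbk s hs).lpt x (i + 1) =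
          (lane C hbk s hs).ept x 0 ∧ ((lane C hbk s hs).arm ε x).page i = !(C.arm b x).up)))
    (hy : y ≠ k) (hj : j < (C.arm k y).len)
    (hp : ((lane C hbk s hs).arm ε x).page i = (C.arm k y).page j) :
    ¬ LI ((lane C hbk s hs).lpt x i) ((lane C hbk s hs).lpt x (i + 1)) (S'.ept y j)
      (S'.ept y (j + 1)) := by
  obtain ⟨hi0, e1, h⟩ := hsm
  rw [e1]
  unfold Slt.hub
  -- the other end of the small piece
  have hother : ∃ t : ℝ, (lane C hbk s hs).lpt x (i + 1) = mk (C.pos b) t := by
    rcases h with ⟨-, h, -⟩ | ⟨hx, -, h, -⟩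
    · exact ⟨0, h⟩
    · exact ⟨_, h.trans (Slt.ept_zero hx)⟩
  by_cases hyb : y = b ∧ j + 1 = (C.arm k y).len
  · obtain ⟨rfl, hjl⟩ := hyb
    have hjp : (C.arm k y).p j ≠ C.pos y := by
      intro h'
      have h0 : j ≠ (C.arm k y).len := by omega
      apply h0
      exact C.self_inj k y hbk.symm j hj.le _ le_rfl (h'.trans (C.arm_last k y hbk.symm).symm)
    have e2 : S'.ept y (j + 1) = mk (C.pos y) 0 := by
      rw [hjl]
      exact S'.ept_last hy
    rw [e2]
    unfold Slt.ept
    rcases h with ⟨-, h, -⟩ | ⟨hx, hw, h, h'⟩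
    · rw [h]
      exact not_LI_same' _ _ _
    · exfalso
      have h1 := lane_wr_up hbk hs hw
      have h2 : (C.arm k y).page j = (C.arm y k).up := by
        rw [← page_last C hbk]
        congr 1
        omega
      rw [h', h2, h1] at hp
      simp at hp
  · have q1 : C.pos b ≠ (C.arm k y).p j := by
      intro h'
      by_cases hy' : y = b
      · subst hy'
        have : j = (C.arm k y).len :=
          C.self_inj k y hbk.symm j hj.le _ le_rfl (h'.symm.trans (C.arm_last k y hbk.symm).symm)
        omega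
      · exact p_ne_pos' C hy.symm hbk (fun e => hy' e.symm) hj.le h'.symm
    have q2 : C.pos b ≠ (C.arm k y).p (j + 1) := by
      intro h'
      by_cases hy' : y = b
      · subst hy'
        have : j + 1 = (C.arm k y).len :=
          C.self_inj k y hbk.symm (j + 1) hj _ le_rfl
            (h'.symm.trans (C.arm_last k y hbk.symm).symm)
        exact hyb ⟨rfl, this⟩
      · exact p_ne_pos' C hy.symm hbk (fun e => hy' e.symm) hj h'.symm
    obtain ⟨t, ht⟩ := hother
    rw [ht]
    unfold Slt.ept
    exact not_LI_small _ _ _ _ q1 q2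

/-- the arm `bk` of the first star and an arm `ky` of the second, `y ≠ b` -/
theorem x_adj (hbk : b ≠ k) {S : Slt C b} {y : Fin n} {i j : ℕ} (hy : y ≠ k) (hyb : y ≠ b)
    (hi : i < (C.arm b k).len) (hj : j < (C.arm k y).len)
    (hp : (C.arm b k).page i = (C.arm k y).page j) :
    ¬ LI (S.ept k i) (S.ept k (i + 1)) ((lane C hkb s hs).ept y j)
      ((lane C hkb s hs).ept y (j + 1)) := by
  have hb : ∀ a c, a ≤ (C.arm b k).len → c ≤ (C.arm k y).len →
      ¬ (a = (C.arm b k).len ∧ c = 0) → (C.arm b k).p a ≠ (C.arm k y).p c := by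
    intro a c ha hc hac h
    rcases CompDiag.base_eq C hbk hy.symm (fun e => hbk e.1) (fun e => hyb e.1.symm) ha hc h with
      h1 | h1 | h1 | h1
    · exact hbk h1.2.2
    · exact hyb h1.2.2.symm
    · exact hac ⟨h1.1, h1.2.1⟩
    · exact hy h1.2.2.symm
  by_cases h0 : i + 1 = (C.arm b k).len ∧ j = 0
  · obtain ⟨hil, rfl⟩ := h0
    have e1 : S.ept k (i + 1) = mk (C.pos k) 0 := by
      rw [hil]
      exact S.ept_last hkb
    have hpk : (C.arm b k).page i = (C.arm k b).up := by
      rw [← page_last C hkb]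
      congr 1
      omega
    rw [hpk, Arm.page_zero] at hp
    rw [e1, Slt.ept_zero hy]
    unfold Slt.ept
    have hq : (C.arm b k).p i = (C.arm k b).p 1 := by
      have h1 := C.rev_p b k hbk 1 (by omega)
      rw [h1]
      congr 1
      omega
    have q1 : C.pos k ≠ (C.arm b k).p i := by
      rw [hq]
      have := C.rev_len b k hbk
      exact (p_ne_pos C hkb one_pos (by omega)).symm
    have q2 : C.pos k ≠ (C.arm k y).p (0 + 1) :=
      (p_ne_pos C hy.symm (by omega) (by omega)).symm
    have q3 : (C.arm b k).p i ≠ (C.arm k y).p (0 + 1) := hb _ _ (by omega) (by omega) (by omega)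
    have hkey := lane_key hkb hs hy hyb hp.symm
    rw [LI_swap_left]
    rcases lt_or_gt_of_ne ((lane C hkb s hs).st_ne_zero y) with h | h
    · rw [LI_comm, LI_vertex _ _ h q2 q1 q3.symm]
      have hw : (lane C hkb s hs).wr y := by
        by_contra hw
        rw [Slt.st_not _ hw] at h
        linarith
      have := hkey.1 hw
      unfold ky at this
      rw [hq]
      exact not_lt.2 this.le
    · rw [LI_vertex _ _ h q1 q2 q3]
      have hw : ¬ (lane C hkb s hs).wr y := by
        intro hw
        have := Slt.st_neg _ hw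
        linarith
      have := hkey.2 hw
      unfold ky at this
      rw [hq]
      exact not_lt.2 this.le
  · unfold Slt.ept
    rw [LI_base _ _ _ _ (hb _ _ (by omega) (by omega) (by omega))
      (hb _ _ (by omega) (by omega) (by omega)) (hb _ _ (by omega) (by omega) (by omega))
      (hb _ _ (by omega) (by omega) (by omega))]
    intro h
    exact C.nc b k k y hbk hy.symm (Or.inr (Or.inr (Or.inl rfl))) i j hi hj ⟨hp, h⟩

/-- the two copies of the edge `bk` -/
theorem x_same {i j : ℕ} (hi : i < (C.arm b k).len) (hj : j < (C.arm k b).len)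
    (hp : (C.arm b k).page i = (C.arm k b).page j) :
    ¬ LI ((lane C hbk s hs).ept k i) ((lane C hbk s hs).ept k (i + 1))
      ((lane C hkb s hs).ept b j) ((lane C hkb s hs).ept b (j + 1)) := by
  classical
  have hL := C.rev_len b k hbk
  have hsj : ∀ a c, a ≤ (C.arm b k).len → c ≤ (C.arm b k).len → a ≠ c →
      (C.arm b k).p a ≠ (C.arm b k).p c :=
    fun a c ha hc hac h => hac (C.self_inj b k hbk a ha c hc h)
  have pj := C.rev_p b k hbk j (by omega)
  have pj1 := C.rev_p b k hbk (j + 1) (by omega)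
  have pgj := C.rev_page b k hbk j (by omega)
  by_cases hij : i + j + 1 = (C.arm b k).len
  · -- the same piece
    have ei : (C.arm b k).len - (j + 1) = i := by omega
    have ei1 : (C.arm b k).len - j = i + 1 := by omega
    have eip : (C.arm b k).len - 1 - j = i := by omega
    rw [ei1] at pj
    rw [ei] at pj1
    rw [eip] at pgj
    have hrj : rt (C.arm k b) j = rt (C.arm b k) i := by
      unfold rt
      rw [pgj]
    have hrj1 : rt (C.arm k b) (j + 1) = - rt (C.arm b k) i := by
      rw [rt_succ, hrj]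
    have hri1 : rt (C.arm b k) (i + 1) = - rt (C.arm b k) i := rt_succ _ _
    have hst := lane_st (C := C) hbk hs
    have hst' := lane_st (C := C) hkb hs
    -- the shifts
    have t1 : (lane C hbk s hs).tg k i = if i = 0 then (lane C hbk s hs).st k
        else s * rt (C.arm b k) i := by
      unfold Slt.tg
      rw [lane_sg]
      split_ifs <;> first | rfl | omega
    have t2 : (lane C hbk s hs).tg k (i + 1) = if j = 0 then 0
        else - (s * rt (C.arm b k) i) := by
      unfold Slt.tg
      rw [lane_sg, hri1, if_neg (Nat.succ_ne_zero i)]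
      split_ifs <;> first | omega | ring
    have t3 : (lane C hkb s hs).tg b j = if j = 0 then (lane C hkb s hs).st b
        else s * rt (C.arm b k) i := by
      unfold Slt.tg
      rw [lane_sg, hrj]
      split_ifs <;> first | rfl | omega
    have t4 : (lane C hkb s hs).tg b (j + 1) = if i = 0 then 0
        else - (s * rt (C.arm b k) i) := by
      unfold Slt.tg
      rw [lane_sg, hrj1, if_neg (Nat.succ_ne_zero j)]
      split_ifs <;> first | rfl | omega | ring
    have r0 : i = 0 → rt (C.arm b k) 0 = rt (C.arm b k) i := fun h => by rw [h]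
    have r0' : j = 0 → rt (C.arm k b) 0 = rt (C.arm b k) i := fun h => by rw [← hrj, h]
    unfold Slt.ept
    rw [pj, pj1, LI_swap_right]
    apply not_LI_anti (hsj _ _ (by omega) (by omega) (by omega))
    rw [t1, t2, t3, t4]
    have hsr : s * rt (C.arm b k) i = 1 ∨ s * rt (C.arm b k) i = -1 := by
      rcases hs with rfl | rfl <;> rcases rt_ne (C.arm b k) i with h | h <;> rw [h] <;> norm_num
    have a1 : i = 0 → (0 < (lane C hbk s hs).st k ∧ s * rt (C.arm b k) i = 1) ∨
        ((lane C hbk s hs).st k < 0 ∧ s * rt (C.arm b k) i = -1) := by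
      intro h
      rw [← r0 h]
      exact hst
    have a2 : j = 0 → (0 < (lane C hkb s hs).st b ∧ s * rt (C.arm b k) i = 1) ∨
        ((lane C hkb s hs).st b < 0 ∧ s * rt (C.arm b k) i = -1) := by
      intro h
      rw [← r0' h]
      exact hst'
    rcases hsr with h | h
    · right
      constructor
      · split_ifs with c
        · rcases a1 c with h' | h'
          · exact h'.1
          · linarith [h'.2]
        · linarith
      · split_ifs with c
        · rcases a2 c with h' | h'
          · exact h'.1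
          · linarith [h'.2]
        · linarith
    · left
      constructor
      · split_ifs with c
        · rcases a1 c with h' | h'
          · linarith [h'.2]
          · exact h'.1
        · linarith
      · split_ifs with c
        · rcases a2 c with h' | h'
          · linarith [h'.2]
          · exact h'.1
        · linarith
  · -- different pieces
    have h1 : i + j + 2 ≠ (C.arm b k).len := by
      intro h
      have e : (C.arm b k).len - 1 - j = i + 1 := by omega
      rw [pgj, e, Arm.page_succ] at hp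
      simp at hp
    have h2 : i + j ≠ (C.arm b k).len := by
      intro h
      have e : i = (C.arm b k).len - 1 - j + 1 := by omega
      rw [pgj, e, Arm.page_succ] at hp
      have e' : (C.arm b k).len - 1 - j + 1 - 1 = (C.arm b k).len - 1 - j := by omega
      simp at hp
    unfold Slt.ept
    rw [LI_base _ _ _ _ (by rw [pj]; exact hsj _ _ (by omega) (by omega) (by omega))
      (by rw [pj1]; exact hsj _ _ (by omega) (by omega) (by omega))
      (by rw [pj]; exact hsj _ _ (by omega) (by omega) (by omega))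
      (by rw [pj1]; exact hsj _ _ (by omega) (by omega) (by omega))]
    intro h
    exact C.nc b k k b hbk hkb (Or.inr (Or.inl rfl)) i j hi hj ⟨hp, h⟩

/-- two arms to the same leaf `x` different from `b` and `k` -/
theorem x_leaf {S : Slt C b} {S' : Slt C k} {x : Fin n} (hbk : b ≠ k) (hxb : x ≠ b)
    (hxk : x ≠ k) {i j : ℕ} (hi : i < (C.arm b x).len) (hj : j < (C.arm k x).len)
    (hp : (C.arm b x).page i = (C.arm k x).page j) :
    ¬ LI (S.ept x i) (S.ept x (i + 1)) (S'.ept x j) (S'.ept x (j + 1)) := by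
  have hb : ∀ a c, a ≤ (C.arm b x).len → c ≤ (C.arm k x).len →
      ¬ (a = (C.arm b x).len ∧ c = (C.arm k x).len) → (C.arm b x).p a ≠ (C.arm k x).p c := by
    intro a c ha hc hac h
    rcases CompDiag.base_eq C hxb.symm hxk.symm (fun e => hbk e.1) (fun e => hxb e.1.symm)
      ha hc h with h1 | h1 | h1 | h1
    · exact hbk h1.2.2
    · exact hxb h1.2.2.symm
    · exact hxk h1.2.2
    · exact hac ⟨h1.1, h1.2.1⟩
  by_cases h0 : i + 1 = (C.arm b x).len ∧ j + 1 = (C.arm k x).len
  · rw [h0.1, h0.2, S.ept_last hxb, S'.ept_last hxk]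
    exact not_LI_same' _ _ _
  · unfold Slt.ept
    rw [LI_base _ _ _ _ (hb _ _ (by omega) (by omega) (by omega))
      (hb _ _ (by omega) (by omega) (by omega)) (hb _ _ (by omega) (by omega) (by omega))
      (hb _ _ (by omega) (by omega) (by omega))]
    intro h
    exact C.nc b x k x hxb.symm hxk.symm (Or.inr (Or.inr (Or.inr rfl))) i j hi hj ⟨hp, h⟩

/-- two edges without common end -/
theorem x_base {x y : Fin n} (hbk : b ≠ k) (hxb : x ≠ b) (hxk : x ≠ k) (hyb : y ≠ b)
    (hyk : y ≠ k) (hxy : x ≠ y) {i j : ℕ} (hi : i ≤ (C.arm b x).len) (hj : j ≤ (C.arm k y).len) :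
    (C.arm b x).p i ≠ (C.arm k y).p j := by
  intro h
  rcases CompDiag.base_eq C hxb.symm hyk.symm (fun e => hbk e.1) (fun e => hyb e.1.symm)
    hi hj h with h1 | h1 | h1 | h1
  · exact hbk h1.2.2
  · exact hyb h1.2.2.symm
  · exact hxk h1.2.2
  · exact hxy h1.2.2

/-- **Hits in a lane.** -/
theorem lane_hit {ε : ℝ} (hε : GoodE C ε) {x y : Fin n} {i j : ℕ}
    (hi : i < (lane C hbk s hs).len x) (hj : j < (lane C hkb s hs).len y)
    (h : ((lane C hbk s hs).arm ε x).Hit ((lane C hkb s hs).arm ε y) i j) :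
    (x ≠ b ∧ x ≠ k ∧ y ≠ b ∧ y ≠ k ∧ x ≠ y) ∧ ∃ i' < (C.arm b x).len, ∃ j' < (C.arm k y).len,
      i = i' + (lane C hbk s hs).om x ∧ j = j' + (lane C hkb s hs).om y ∧
      (C.arm b x).Hit (C.arm k y) i' j' := by
  rw [Slt.hit_iff _ hε _ hi hj] at h
  obtain ⟨hp, hL⟩ := h
  rcases Slt.kind (lane C hbk s hs) ε x hi with ⟨hx, i', hi', e0, e1, e2, e3⟩ | hsm
  · rcases Slt.kind (lane C hkb s hs) ε y hj with ⟨hy, j', hj', d0, d1, d2, d3⟩ | hsm'
    · rw [e1, e2, d1, d2] at hL
      rw [e3, d3] at hp
      by_cases hxk : x = k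
      · subst hxk
        exfalso
        by_cases hyb : y = b
        · subst hyb
          exact x_same hbk hkb hs hi' hj' hp hL
        · exact x_adj hkb hs hbk hy hyb hi' hj' hp hL
      · by_cases hyb : y = b
        · subst hyb
          exfalso
          rw [LI_comm] at hL
          exact x_adj hbk hs hkb hx hxk hj' hi' hp.symm hL
        · by_cases hxy : x = y
          · subst hxy
            exact absurd hL (x_leaf hbk hx hxk hi' hj' hp)
          · refine ⟨⟨hx, hxk, hyb, hy, hxy⟩, i', hi', j', hj', e0, d0, hp, ?_⟩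
            unfold Slt.ept at hL
            rwa [LI_base _ _ _ _ (x_base hbk hx hxk hyb hy hxy (by omega) (by omega))
              (x_base hbk hx hxk hyb hy hxy (by omega) (by omega))
              (x_base hbk hx hxk hyb hy hxy (by omega) (by omega))
              (x_base hbk hx hxk hyb hy hxy (by omega) (by omega))] at hL
    · exfalso
      rw [e1, e2, LI_comm] at hL
      exact x_small hkb hs _ hj hsm' hx hi' (by rw [← e3, hp]) hL
  · exfalso
    rcases Slt.kind (lane C hkb s hs) ε y hj with ⟨hy, j', hj', d0, d1, d2, d3⟩ | hsm'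
    · rw [d1, d2] at hL
      exact x_small hbk hs _ hi hsm hy hj' (by rw [← d3, hp]) hL
    · obtain ⟨-, e1, h1⟩ := hsm
      obtain ⟨-, d1, h2⟩ := hsm'
      have o1 : ∃ t : ℝ, (lane C hbk s hs).lpt x (i + 1) = mk (C.pos b) t := by
        rcases h1 with ⟨-, h, -⟩ | ⟨hx, -, h, -⟩
        · exact ⟨0, h⟩
        · exact ⟨_, h.trans (Slt.ept_zero hx)⟩
      have o2 : ∃ t : ℝ, (lane C hkb s hs).lpt y (j + 1) = mk (C.pos k) t := by
        rcases h2 with ⟨-, h, -⟩ | ⟨hx, -, h, -⟩
        · exact ⟨0, h⟩
        · exact ⟨_, h.trans (Slt.ept_zero hx)⟩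
      obtain ⟨t, ht⟩ := o1
      obtain ⟨t', ht'⟩ := o2
      rw [e1, d1, ht, ht'] at hL
      have hne : C.pos b ≠ C.pos k := fun h => hbk (C.pos_inj h)
      exact not_LI_small _ _ _ _ hne hne hL

/-- **The two stars of a lane cross at most as often as the edges without common ends.** -/
theorem lane_cr {ε : ℝ} (hε : GoodE C ε) :
    ((lane C hbk s hs).star hε).cr ((lane C hkb s hs).star hε) ≤ C.cr b k := by
  classical
  unfold Bp.SStar.cr CompDiag.cr
  apply Finset.sum_le_sum
  intro x _
  apply Finset.sum_le_sum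
  intro y _
  show ((lane C hbk s hs).arm ε x).cr ((lane C hkb s hs).arm ε y) ≤ _
  unfold Arm.cr
  by_cases hc : x ≠ b ∧ x ≠ k ∧ y ≠ b ∧ y ≠ k ∧ x ≠ y
  · rw [if_pos hc]
    apply Finset.card_le_card_of_injOn
      (fun q => (q.1 - (lane C hbk s hs).om x, q.2 - (lane C hkb s hs).om y))
    · rintro ⟨i, j⟩ hq
      simp only [Finset.coe_filter, Finset.mem_product, Finset.mem_range, Set.mem_ofPred_eq] at hq ⊢
      obtain ⟨-, i', hi', j', hj', e1, e2, h⟩ := lane_hit hbk hkb hs hε hq.1.1 hq.1.2 hq.2
      rw [e1, e2, Nat.add_sub_cancel, Nat.add_sub_cancel]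
      exact ⟨⟨hi', hj'⟩, h⟩
    · rintro ⟨i, j⟩ hq ⟨i₂, j₂⟩ hq₂ he
      simp only [Finset.coe_filter, Finset.mem_product, Finset.mem_range, Set.mem_ofPred_eq]
        at hq hq₂
      obtain ⟨-, i', -, j', -, e1, e2, -⟩ := lane_hit hbk hkb hs hε hq.1.1 hq.1.2 hq.2
      obtain ⟨-, i'', -, j'', -, d1, d2, -⟩ := lane_hit hbk hkb hs hε hq₂.1.1 hq₂.1.2 hq₂.2
      simp only [Prod.mk.injEq] at he ⊢
      omega
  · rw [if_neg hc, Nat.le_zero, Finset.card_eq_zero, Finset.filter_eq_empty_iff]
    rintro ⟨i, j⟩ hq h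
    simp only [Finset.mem_product, Finset.mem_range] at hq
    exact hc (lane_hit hbk hkb hs hε hq.1 hq.2 h).1

end cross

end Vale.Agent.P040.Slot
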