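import Vale.Agent.P040.H198.SlotCross

/-!
# Slot stars: general position of the two stars of a lane; stars with the same wrapped arms
-/

set_option autoImplicit false

namespace Vale.Agent.P040.Slot

open Topo HH Finset

variable {n : ℕ} {C : CompDiag n} {b k : Fin n}

/-- every point of a slot star has the form of a shifted point -/
theorem Slt.lpt_form (S : Slt C b) {x : Fin n} {i : ℕ} (hi : i ≤ S.len x) :
    (i = 0 ∧ S.lpt x i = mk (C.pos b) 1) ∨
    (x = b ∧ i = S.len x ∧ S.lpt x i = mk (C.pos b) 0) ∨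
    (x ≠ b ∧ ∃ i' ≤ (C.arm b x).len, i = i' + S.om x ∧
      S.lpt x i = mk ((C.arm b x).p i') (S.tg x i')) := by
  classical
  rcases Nat.eq_zero_or_pos i with h0 | h0
  · left
    refine ⟨h0, ?_⟩
    rw [h0]
    exact S.lpt_zero x
  · right
    rcases S.lpt_pos h0 hi with ⟨h1, h2, h3⟩ | ⟨h1, i', h2, h3, -, h4⟩
    · left
      refine ⟨h1, ?_, h3⟩
      have : S.len x = 1 := by simp [Slt.len, h1]
      omega
    · right
      exact ⟨h1, i', h2, h3, h4⟩

theorem Slt.len_eq (S : Slt C b) {x : Fin n} (hx : x ≠ b) :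
    S.len x = (C.arm b x).len + S.om x := by
  classical
  simp [Slt.len, hx]

theorem Slt.tg_zero (S : Slt C b) (x : Fin n) : S.tg x 0 = S.st x := by
  simp [Slt.tg]

theorem Slt.tg_last (S : Slt C b) (x : Fin n) : S.tg x (C.arm b x).len = 0 := by
  have := (C.arm b x).len_pos
  unfold Slt.tg
  rw [if_neg (by omega), if_neg (by omega)]

theorem Slt.tg_mid (S : Slt C b) (x : Fin n) {i : ℕ} (h0 : 0 < i) (hi : i < (C.arm b x).len) :
    S.tg x i = S.sg x * rt (C.arm b x) i := by
  unfold Slt.tg
  rw [if_neg (by omega), if_pos hi]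

section gp

variable (hbk : b ≠ k) (hkb : k ≠ b) {s : ℝ} (hs : s = 1 ∨ s = -1)

theorem lane_sep {x y : Fin n} {i j : ℕ} (hi : i ≤ (lane C hbk s hs).len x)
    (hj : j ≤ (lane C hkb s hs).len y)
    (h : (lane C hbk s hs).lpt x i = (lane C hkb s hs).lpt y j) :
    x = y ∧ i = (lane C hbk s hs).len x ∧ j = (lane C hkb s hs).len y := by
  have hpos : C.pos b ≠ C.pos k := fun e => hbk (C.pos_inj e)
  rcases (lane C hbk s hs).lpt_form hi with ⟨i0, e⟩ | ⟨xb, il, e⟩ | ⟨xb, i', hi', ei, e⟩
  · rcases (lane C hkb s hs).lpt_form hj with ⟨j0, d⟩ | ⟨yk, jl, d⟩ | ⟨yk, j', hj', ej, d⟩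
    · rw [e, d, mk_inj] at h
      exact absurd h.1 hpos
    · rw [e, d, mk_inj] at h
      exact absurd h.1 hpos
    · rw [e, d, mk_inj] at h
      exfalso
      by_cases hy : y = b
      · subst hy
        have h1 : j' = (C.arm k y).len :=
          C.self_inj k y hkb j' hj' _ le_rfl (h.1.symm.trans (C.arm_last k y hkb).symm)
        rw [h1, Slt.tg_last] at h
        linarith [h.2]
      · exact p_ne_pos' C yk.symm hbk (fun e => hy e.symm) hj' h.1.symm
  · rcases (lane C hkb s hs).lpt_form hj with ⟨j0, d⟩ | ⟨yk, jl, d⟩ | ⟨yk, j', hj', ej, d⟩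
    · rw [e, d, mk_inj] at h
      exact absurd h.1 hpos
    · rw [e, d, mk_inj] at h
      exact absurd h.1 hpos
    · rw [e, d, mk_inj] at h
      by_cases hy : y = b
      · subst hy
        have h1 : j' = (C.arm k y).len :=
          C.self_inj k y hkb j' hj' _ le_rfl (h.1.symm.trans (C.arm_last k y hkb).symm)
        refine ⟨xb, il, ?_⟩
        rw [ej, h1, (lane C hkb s hs).len_eq yk]
      · exact absurd h.1.symm (p_ne_pos' C yk.symm hbk (fun e => hy e.symm) hj')
  · rcases (lane C hkb s hs).lpt_form hj with ⟨j0, d⟩ | ⟨yk, jl, d⟩ | ⟨yk, j', hj', ej, d⟩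
    · rw [e, d, mk_inj] at h
      exfalso
      by_cases hx : x = k
      · subst hx
        have h1 : i' = (C.arm b x).len :=
          C.self_inj b x hbk i' hi' _ le_rfl (h.1.trans (C.arm_last b x hbk).symm)
        rw [h1, Slt.tg_last] at h
        linarith [h.2]
      · exact p_ne_pos' C xb.symm hkb (fun e => hx e.symm) hi' h.1
    · rw [e, d, mk_inj] at h
      by_cases hx : x = k
      · subst hx
        have h1 : i' = (C.arm b x).len :=
          C.self_inj b x hbk i' hi' _ le_rfl (h.1.trans (C.arm_last b x hbk).symm)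
        refine ⟨yk.symm, ?_, jl⟩
        rw [ei, h1, (lane C hbk s hs).len_eq xb]
      · exact absurd h.1 (p_ne_pos' C xb.symm hkb (fun e => hx e.symm) hi')
    · rw [e, d, mk_inj] at h
      obtain ⟨h1, h2⟩ := h
      by_cases hsame : x = k ∧ y = b
      · obtain ⟨rfl, rfl⟩ := hsame
        exfalso
        have hL := C.rev_len y x hbk
        have hp := C.rev_p y x hbk j' (by omega)
        rw [hp] at h1
        have h3 : i' = (C.arm y x).len - j' :=
          C.self_inj y x hbk i' hi' _ (by omega) h1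
        rcases Nat.eq_zero_or_pos i' with c | c
        · have hj2 : j' = (C.arm x y).len := by omega
          rw [c, hj2, Slt.tg_last, Slt.tg_zero] at h2
          exact (lane C hbk s hs).st_ne_zero x h2
        · rcases hi'.eq_or_lt with c' | c'
          · have hj2 : j' = 0 := by omega
            rw [c', hj2, Slt.tg_last, Slt.tg_zero] at h2
            exact (lane C hkb s hs).st_ne_zero y h2.symm
          · rw [Slt.tg_mid _ _ c c', Slt.tg_mid _ _ (by omega) (by omega), lane_sg, lane_sg] at h2
            have hpg := C.rev_page y x hbk j' (by omega)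
            have e1 : i' = (C.arm y x).len - 1 - j' + 1 := by omega
            have hr : rt (C.arm y x) i' = - rt (C.arm x y) j' := by
              rw [e1, rt_succ]
              congr 1
              unfold rt
              rw [hpg]
            rw [hr] at h2
            rcases hs with rfl | rfl <;> rcases rt_ne (C.arm x y) j' with c2 | c2 <;>
              rw [c2] at h2 <;> norm_num at h2
      · rcases CompDiag.base_eq C xb.symm yk.symm (fun e => hbk e.1)
          (fun e => hsame ⟨e.2, e.1.symm⟩) hi' hj' h1 with c | c | c | c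
        · exact absurd c.2.2 hbk
        · exfalso
          rw [c.1, c.2.1, Slt.tg_zero, Slt.tg_last] at h2
          exact (lane C hbk s hs).st_ne_zero x h2
        · exfalso
          rw [c.1, c.2.1, Slt.tg_zero, Slt.tg_last] at h2
          exact (lane C hkb s hs).st_ne_zero y h2.symm
        · refine ⟨c.2.2, ?_, ?_⟩
          · rw [ei, c.1, (lane C hbk s hs).len_eq xb]
          · rw [ej, c.2.1, (lane C hkb s hs).len_eq yk]

/-- **The two stars of a lane are in general position.** -/
theorem lane_gp {ε : ℝ} (hε : GoodE C ε) :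
    ((lane C hbk s hs).star hε).GP ((lane C hkb s hs).star hε) := by
  intro x i y j hi hj h
  exact lane_sep hbk hkb hs hi hj ((strictMonoOn_val hε).injOn ((lane C hbk s hs).lpt_mem hi)
    ((lane C hkb s hs).lpt_mem hj) h)

end gp

/-! ### slots with the same wrapped arms -/

/-- The slots wrap the same arms. -/
def Slt.Sim (S S' : Slt C b) : Prop := ∀ x, x ≠ b → (S.wr x ↔ S'.wr x)

section same

variable {S S' : Slt C b} (h : S.Sim S')

include h

theorem Slt.Sim.om {x : Fin n} (hx : x ≠ b) : S.om x = S'.om x := by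
  classical
  unfold Slt.om
  simp only [h x hx]

theorem Slt.Sim.st {x : Fin n} (hx : x ≠ b) : S.st x = S'.st x := by
  classical
  unfold Slt.st
  simp only [h x hx]

theorem Slt.Sim.len (x : Fin n) : S.len x = S'.len x := by
  classical
  by_cases hx : x = b
  · simp [Slt.len, hx]
  · rw [S.len_eq hx, S'.len_eq hx, h.om hx]

theorem Slt.Sim.up (x : Fin n) : S.up x = S'.up x := by
  classical
  by_cases hx : x = b
  · simp [Slt.up, hx]
  · unfold Slt.up
    simp only [h x hx]

/-- the points have the same base, and the same shift unless the base is not a vertex -/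
theorem Slt.Sim.lpt {x : Fin n} {i : ℕ} (hi : i ≤ S.len x) :
    ∃ a t t' : ℝ, S.lpt x i = mk a t ∧ S'.lpt x i = mk a t' ∧ (t = t' ∨ ∀ v, a ≠ C.pos v) := by
  classical
  have hi' : i ≤ S'.len x := by rwa [← h.len x]
  rcases Nat.eq_zero_or_pos i with h0 | h0
  · refine ⟨C.pos b, 1, 1, ?_, ?_, Or.inl rfl⟩
    · rw [h0]; exact S.lpt_zero x
    · rw [h0]; exact S'.lpt_zero x
  · rcases S.lpt_pos h0 hi with ⟨a1, a2, a3⟩ | ⟨a1, j, a2, a3, -, a4⟩
    · rcases S'.lpt_pos h0 hi' with ⟨b1, b2, b3⟩ | ⟨b1, -⟩
      · exact ⟨C.pos b, 0, 0, a3, b3, Or.inl rfl⟩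
      · exact absurd a1 b1
    · rcases S'.lpt_pos h0 hi' with ⟨b1, -⟩ | ⟨b1, j', b2, b3, -, b4⟩
      · exact absurd b1 a1
      · have hjj : j = j' := by
          have := h.om a1
          omega
        subst hjj
        refine ⟨(C.arm b x).p j, S.tg x j, S'.tg x j, a4, b4, ?_⟩
        rcases Nat.eq_zero_or_pos j with c | c
        · left
          rw [c, S.tg_zero, S'.tg_zero, h.st a1]
        · rcases a2.eq_or_lt with c' | c'
          · left
            rw [c', S.tg_last, S'.tg_last]
          · right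
            exact C.int_ne_pos b x a1.symm j c c'

/-- **Sameness.** The arms of two slot stars with the same wrapped arms have the same lengths,
start in the same page, and their points lie in the same gaps of the leaves. -/
theorem Slt.Sim.arm {ε : ℝ} (hε : GoodE C ε) (x : Fin n) :
    (S.arm ε x).len = (S'.arm ε x).len ∧ (S.arm ε x).up = (S'.arm ε x).up ∧
    ∀ i ≤ (S.arm ε x).len, ∀ v,
      ((S.arm ε x).p i < C.pos v ↔ (S'.arm ε x).p i < C.pos v) ∧
      (C.pos v < (S.arm ε x).p i ↔ C.pos v < (S'.arm ε x).p i) := by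
  refine ⟨h.len x, h.up x, ?_⟩
  intro i hi v
  have hi1 : i ≤ S.len x := hi
  have hi' : i ≤ S'.len x := by rw [← h.len x]; exact hi
  obtain ⟨a, t, t', e, e', ht⟩ := h.lpt hi1
  have hv : C.pos v = Slt.val ε (mk (C.pos v) 0) := by rw [val_mk]; ring
  have hm := strictMonoOn_val hε
  have hvm : mk (C.pos v) 0 ∈ AL C := mk_mem (pos_mem_PP v) zero_mem_TT
  show (Slt.val ε (S.lpt x i) < C.pos v ↔ Slt.val ε (S'.lpt x i) < C.pos v) ∧
    (C.pos v < Slt.val ε (S.lpt x i) ↔ C.pos v < Slt.val ε (S'.lpt x i))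
  rw [hv, hm.lt_iff_lt (S.lpt_mem hi1) hvm, hm.lt_iff_lt (S'.lpt_mem hi') hvm,
    hm.lt_iff_lt hvm (S.lpt_mem hi1), hm.lt_iff_lt hvm (S'.lpt_mem hi'), e, e']
  rcases ht with rfl | ht
  · exact ⟨Iff.rfl, Iff.rfl⟩
  · have h1 := ht v
    simp only [mk_lt, h1, h1.symm, false_and, or_false, and_self]

end same

/-- the lanes after `k` and before `k'` have the same wrapped arms if no arm is between -/
theorem lane_sim {k' : Fin n} (hbk : b ≠ k) (hbk' : b ≠ k') (hlt : ang C b k < ang C b k')
    (hno : ∀ x, x ≠ b → ¬ (ang C b k < ang C b x ∧ ang C b x < ang C b k')) :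
    (lane C hbk 1 (Or.inl rfl)).Sim (lane C hbk' (-1) (Or.inr rfl)) := by
  intro x hx
  unfold Slt.wr
  rw [lane_mem, lane_mem]
  have h1 : (x = k ∧ (1 : ℝ) = 1) ↔ x = k := by simp
  have h2 : (x = k' ∧ (-1 : ℝ) = 1) ↔ False := by
    constructor
    · rintro ⟨-, h⟩; norm_num at h
    · exact False.elim
  rw [h1, h2, or_false]
  have key : (ang C b x < ang C b k ∨ x = k) ↔ ang C b x < ang C b k' := by
    constructor
    · rintro (h | rfl)
      · exact h.trans hlt
      · exact hlt
    · intro h
      rcases lt_trichotomy (ang C b x) (ang C b k) with h' | h' | h'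
      · exact Or.inl h'
      · exact Or.inr (ang_inj C hx.symm hbk h')
      · exact absurd ⟨h', h⟩ (hno x hx)
  rw [key]

end Vale.Agent.P040.Slot
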