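import Vale.Agent.P040.H198.Slot

/-!
# Slot stars: the stars as spine stars, and crossings in a lane
-/

set_option autoImplicit false

namespace Vale.Agent.P040.Slot

open Topo HH Finset Filter Topology

variable {n : ℕ} {C : CompDiag n} {b k : Fin n}

/-! ### the points of the slot star -/

namespace Slt

variable (S : Slt C b)

theorem lpt_zero (x : Fin n) : S.lpt x 0 = S.hub := by
  classical
  by_cases h1 : x = b
  · simp [lpt, h1]
  · by_cases h2 : S.wr x
    · simp [lpt, h1, h2]
    · have : S.st x = 1 := by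
        unfold st
        rw [if_neg h2]
      have e : S.lpt x 0 = S.ept x 0 := by simp [lpt, h1, h2]
      rw [e, ept_zero h1, this]
      rfl

theorem lpt_pos {x : Fin n} {i : ℕ} (h0 : 0 < i) (hi : i ≤ S.len x) :
    (x = b ∧ i = 1 ∧ S.lpt x i = mk (C.pos b) 0) ∨
    (x ≠ b ∧ ∃ i' ≤ (C.arm b x).len, i = i' + S.om x ∧ (i' = 0 → S.wr x) ∧
      S.lpt x i = S.ept x i') := by
  classical
  by_cases hx : x = b
  · left
    have h1 : S.len x = 1 := by simp [len, hx]
    refine ⟨hx, by omega, ?_⟩
    have : i ≠ 0 := by omega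
    simp [lpt, hx, this]
  · right
    refine ⟨hx, ?_⟩
    by_cases hw : S.wr x
    · have hom : S.om x = 1 := by simp [om, hw]
      have hlen : S.len x = (C.arm b x).len + 1 := by simp [len, hx, hom]
      refine ⟨i - 1, by omega, by omega, fun _ => hw, ?_⟩
      have : i ≠ 0 := by omega
      simp [lpt, hx, hw, this]
    · have hom : S.om x = 0 := by simp [om, hw]
      have hlen : S.len x = (C.arm b x).len := by simp [len, hx, hom]
      exact ⟨i, by omega, by omega, fun h => by omega, by simp [lpt, hx, hw]⟩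

theorem st_wr {x : Fin n} (h : S.wr x) : S.st x = - Real.exp (ky C b x) := by
  classical
  unfold st
  rw [if_pos h]

theorem st_neg {x : Fin n} (h : S.wr x) : S.st x < 0 := by
  rw [S.st_wr h]
  have := Real.exp_pos (ky C b x)
  linarith

theorem st_not {x : Fin n} (h : ¬ S.wr x) : S.st x = 1 := by
  classical
  unfold st
  rw [if_neg h]

theorem lpt_inj {x y : Fin n} {i j : ℕ} (hi : i ≤ S.len x) (hj : j ≤ S.len y)
    (h : S.lpt x i = S.lpt y j) : (x = y ∧ i = j) ∨ (i = 0 ∧ j = 0) := by
  -- the centre is not another point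
  have hub_ne : ∀ {z : Fin n} {l : ℕ}, 0 < l → l ≤ S.len z → S.hub ≠ S.lpt z l := by
    intro z l h0 hl e
    rcases S.lpt_pos h0 hl with ⟨-, -, e1⟩ | ⟨hz, l', hl', -, hw, e1⟩
    · rw [e1] at e
      unfold hub at e
      rw [mk_inj] at e
      linarith [e.2]
    · rw [e1] at e
      rcases Nat.eq_zero_or_pos l' with h' | h'
      · rw [h', ept_zero hz] at e
        unfold hub at e
        rw [mk_inj] at e
        have := S.st_neg (hw h')
        linarith [e.2]
      · unfold ept hub at e
        rw [mk_inj] at e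
        exact p_ne_pos C hz.symm h' hl' e.1.symm
  rcases Nat.eq_zero_or_pos i with hi0 | hi0
  · rcases Nat.eq_zero_or_pos j with hj0 | hj0
    · right
      exact ⟨hi0, hj0⟩
    · exfalso
      rw [hi0, lpt_zero] at h
      exact hub_ne hj0 hj h
  · rcases Nat.eq_zero_or_pos j with hj0 | hj0
    · exfalso
      rw [hj0, lpt_zero] at h
      exact hub_ne hi0 hi h.symm
    · left
      rcases S.lpt_pos hi0 hi with ⟨hx, e0, e1⟩ | ⟨hx, i', hi', e0, hw, e1⟩
      · rcases S.lpt_pos hj0 hj with ⟨hy, d0, d1⟩ | ⟨hy, j', hj', d0, hw', d1⟩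
        · exact ⟨hx.trans hy.symm, e0.trans d0.symm⟩
        · exfalso
          rw [e1, d1] at h
          rcases Nat.eq_zero_or_pos j' with h' | h'
          · rw [h', ept_zero hy, mk_inj] at h
            have := S.st_neg (hw' h')
            linarith [h.2]
          · unfold ept at h
            rw [mk_inj] at h
            exact p_ne_pos C hy.symm h' hj' h.1.symm
      · rcases S.lpt_pos hj0 hj with ⟨hy, d0, d1⟩ | ⟨hy, j', hj', d0, hw', d1⟩
        · exfalso
          rw [e1, d1] at h
          rcases Nat.eq_zero_or_pos i' with h' | h'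
          · rw [h', ept_zero hx, mk_inj] at h
            have := S.st_neg (hw h')
            linarith [h.2]
          · unfold ept at h
            rw [mk_inj] at h
            exact p_ne_pos C hx.symm h' hi' h.1
        · rw [e1, d1] at h
          have hb : (C.arm b x).p i' = (C.arm b y).p j' := by
            unfold ept at h
            rw [mk_inj] at h
            exact h.1
          by_cases hxy : x = y
          · subst hxy
            have := C.self_inj b x hx.symm i' hi' j' hj' hb
            exact ⟨rfl, by omega⟩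
          · exfalso
            rcases CompDiag.base_eq C hx.symm hy.symm (fun e => hxy e.2) (fun e => hy e.1.symm)
              hi' hj' hb with h1 | h1 | h1 | h1
            · rw [h1.1, h1.2.1, ept_zero hx, ept_zero hy, mk_inj, S.st_wr (hw h1.1),
                S.st_wr (hw' h1.2.1)] at h
              have := Real.exp_injective (neg_injective h.2)
              exact hxy (ky_inj C hx.symm hy.symm this)
            · exact hy h1.2.2.symm
            · exact hx h1.2.2
            · exact hxy h1.2.2

theorem ept_last {x : Fin n} (hx : x ≠ b) : S.ept x (C.arm b x).len = mk (C.pos x) 0 := by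
  have h := (C.arm b x).len_pos
  unfold ept tg
  rw [C.arm_last b x hx.symm, if_neg (by omega), if_neg (by omega)]

theorem lpt_last (x : Fin n) : S.lpt x (S.len x) = mk (C.pos x) 0 := by
  classical
  by_cases hx : x = b
  · have h1 : S.len x = 1 := by simp [len, hx]
    rw [h1]
    simp [lpt, hx]
  · rcases S.lpt_pos (S.len_pos x) le_rfl with ⟨h, -⟩ | ⟨-, i', hi', e0, -, e1⟩
    · exact absurd h hx
    · have : i' = (C.arm b x).len := by
        have : S.len x = (C.arm b x).len + S.om x := by simp [len, hx]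
        omega
      rw [e1, this]
      exact S.ept_last hx

end Slt

/-! ### good values of the infinitesimal -/

/-- the base points -/
def PP (C : CompDiag n) : Set ℝ :=
  (⋃ q : Fin n × Fin n, (fun j => (C.arm q.1 q.2).p j) '' Set.Iic (C.arm q.1 q.2).len) ∪
    Set.range C.pos

/-- the shifts -/
def TT (C : CompDiag n) : Set ℝ :=
  {0, 1, -1} ∪ Set.range fun q : Fin n × Fin n => - Real.exp (ky C q.1 q.2)

theorem PP_finite (C : CompDiag n) : (PP C).Finite :=
  (Set.finite_iUnion fun _ => (Set.finite_Iic _).image _).union (Set.finite_range _)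

theorem TT_finite (C : CompDiag n) : (TT C).Finite :=
  (Set.toFinite _).union (Set.finite_range _)

/-- `ε` is so small that shifts by multiples of `ε` do not change the order -/
def GoodE (C : CompDiag n) (ε : ℝ) : Prop :=
  0 < ε ∧ ∀ a ∈ PP C, ∀ a' ∈ PP C, ∀ t ∈ TT C, ∀ t' ∈ TT C, a < a' → a + ε * t < a' + ε * t'

theorem exists_goodE (C : CompDiag n) : ∃ ε : ℝ, GoodE C ε := by
  have h0 : ∀ᶠ ε in 𝓝[>] (0 : ℝ), 0 < ε := by
    filter_upwards [self_mem_nhdsWithin] with ε hε using hε
  have h1 : ∀ᶠ ε in 𝓝[>] (0 : ℝ), ∀ a ∈ PP C, ∀ a' ∈ PP C, ∀ t ∈ TT C, ∀ t' ∈ TT C,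
      a < a' → a + ε * t < a' + ε * t' := by
    rw [eventually_all_finite (PP_finite C)]
    intro a _
    rw [eventually_all_finite (PP_finite C)]
    intro a' _
    rw [eventually_all_finite (TT_finite C)]
    intro t _
    rw [eventually_all_finite (TT_finite C)]
    intro t' _
    by_cases h : a < a'
    · have hc : Continuous fun ε : ℝ => a' + ε * t' - (a + ε * t) := by fun_prop
      have h2 : ∀ᶠ ε in 𝓝 (0 : ℝ), 0 < a' + ε * t' - (a + ε * t) := by
        apply hc.continuousAt.eventually (p := fun y => 0 < y)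
        apply lt_mem_nhds
        linarith
      filter_upwards [mem_nhdsWithin_of_mem_nhds h2] with ε hε _
      have : 0 < a' + ε * t' - (a + ε * t) := hε
      linarith
    · exact Eventually.of_forall fun ε h' => absurd h' h
  obtain ⟨ε, h2, h3⟩ := (h0.and h1).exists
  exact ⟨ε, h2, h3⟩

/-- the shifted points in use -/
def AL (C : CompDiag n) : Set LR := {a | (ofLex a).1 ∈ PP C ∧ (ofLex a).2 ∈ TT C}

theorem mk_mem {a t : ℝ} (ha : a ∈ PP C) (ht : t ∈ TT C) : mk a t ∈ AL C := ⟨ha, ht⟩

theorem val_mk (ε a t : ℝ) : Slt.val ε (mk a t) = a + ε * t := rfl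

theorem strictMonoOn_val {ε : ℝ} (h : GoodE C ε) : StrictMonoOn (Slt.val ε) (AL C) := by
  intro x hx y hy hxy
  obtain ⟨⟨a, t⟩, rfl⟩ := toLex.surjective x
  obtain ⟨⟨a', t'⟩, rfl⟩ := toLex.surjective y
  have h1 : a < a' ∨ (a = a' ∧ t < t') := (mk_lt a t a' t').1 hxy
  show a + ε * t < a' + ε * t'
  rcases h1 with h1 | ⟨h1, h2⟩
  · exact h.2 a hx.1 a' hy.1 t hx.2 t' hy.2 h1
  · rw [h1]
    have := mul_lt_mul_of_pos_left h2 h.1
    linarith

theorem zero_mem_TT : (0 : ℝ) ∈ TT C := Or.inl (by simp)
theorem one_mem_TT : (1 : ℝ) ∈ TT C := Or.inl (by simp)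
theorem neg_mem_TT : (-1 : ℝ) ∈ TT C := Or.inl (by simp)
theorem pos_mem_PP (v : Fin n) : C.pos v ∈ PP C := Or.inr ⟨v, rfl⟩
theorem p_mem_PP {b x : Fin n} {i : ℕ} (hi : i ≤ (C.arm b x).len) : (C.arm b x).p i ∈ PP C :=
  Or.inl (Set.mem_iUnion.2 ⟨(b, x), i, hi, rfl⟩)

namespace Slt

variable (S : Slt C b)

theorem st_mem (x : Fin n) : S.st x ∈ TT C := by
  by_cases h : S.wr x
  · rw [S.st_wr h]
    exact Or.inr ⟨(b, x), rfl⟩
  · rw [S.st_not h]
    exact one_mem_TT

theorem tg_mem (x : Fin n) (j : ℕ) : S.tg x j ∈ TT C := by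
  classical
  unfold tg
  split_ifs
  · exact S.st_mem x
  · rcases S.sg_mem x with h | h | h <;> rcases rt_ne (C.arm b x) j with h' | h' <;> rw [h, h']
    · rw [zero_mul]; exact zero_mem_TT
    · rw [zero_mul]; exact zero_mem_TT
    · rw [one_mul]; exact one_mem_TT
    · rw [one_mul]; exact neg_mem_TT
    · rw [mul_one]; exact neg_mem_TT
    · rw [show (-1 : ℝ) * -1 = 1 by norm_num]; exact one_mem_TT
  · exact zero_mem_TT

theorem ept_mem {x : Fin n} {i : ℕ} (hi : i ≤ (C.arm b x).len) : S.ept x i ∈ AL C :=
  mk_mem (p_mem_PP hi) (S.tg_mem x i)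

theorem hub_mem : S.hub ∈ AL C := mk_mem (pos_mem_PP b) one_mem_TT

theorem lpt_mem {x : Fin n} {i : ℕ} (hi : i ≤ S.len x) : S.lpt x i ∈ AL C := by
  rcases Nat.eq_zero_or_pos i with h0 | h0
  · rw [h0, lpt_zero]
    exact S.hub_mem
  · rcases S.lpt_pos h0 hi with ⟨-, -, e⟩ | ⟨-, i', hi', -, -, e⟩
    · rw [e]
      exact mk_mem (pos_mem_PP b) zero_mem_TT
    · rw [e]
      exact S.ept_mem hi'

/-- hits of slot arms in terms of shifted points -/
theorem hit_iff {ε : ℝ} (hε : GoodE C ε) (S' : Slt C k) {x y : Fin n} {i j : ℕ}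
    (hi : i < S.len x) (hj : j < S'.len y) :
    (S.arm ε x).Hit (S'.arm ε y) i j ↔ (S.arm ε x).page i = (S'.arm ε y).page j ∧
      LI (S.lpt x i) (S.lpt x (i + 1)) (S'.lpt y j) (S'.lpt y (j + 1)) := by
  unfold Arm.Hit
  exact and_congr Iff.rfl (LI_map (strictMonoOn_val hε) (S.lpt_mem hi.le) (S.lpt_mem hi)
    (S'.lpt_mem hj.le) (S'.lpt_mem hj))

/-- **The slot star.** -/
noncomputable def star {ε : ℝ} (hε : GoodE C ε) : Bp.SStar C.pos where
  ctr := val ε S.hub
  arm := fun x => S.arm ε x
  ctr_ne := by
    intro x h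
    have h1 : val ε (mk (C.pos x) 0) = val ε S.hub := by
      rw [← h, val_mk]; ring
    have h2 := (strictMonoOn_val hε).injOn (mk_mem (pos_mem_PP x) zero_mem_TT) S.hub_mem h1
    unfold hub at h2
    rw [mk_inj] at h2
    linarith [h2.2]
  arm_zero := fun x => congrArg (val ε) (S.lpt_zero x)
  arm_last := by
    intro x
    show val ε (S.lpt x (S.len x)) = _
    rw [lpt_last, val_mk]
    ring
  inj := by
    intro x i y j hi hj h
    exact S.lpt_inj hi hj ((strictMonoOn_val hε).injOn (S.lpt_mem hi) (S.lpt_mem hj) h)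
  nc := by
    intro x i y j hi hj h
    have h' := (S.hit_iff hε S hi hj).1 h
    exact S.nc_lpt ε hi hj h'.1 h'.2

end Slt

/-! ### lanes -/

/-- The slot at `b` next to the arm `k`: after it for `s = 1`, before it for `s = -1`; the arm to
`k` is shifted to the right for `s = 1`, to the left for `s = -1`. -/
noncomputable def lane (C : CompDiag n) {b k : Fin n} (hbk : b ≠ k) (s : ℝ) (hs : s = 1 ∨ s = -1) :
    Slt C b := by
  classical
  exact
  { B := {x | ang C b x < ang C b k ∨ (x = k ∧ s = 1)}
    sg := fun x => if x = k then s else 0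
    lower := by
      rintro x y hx hy (h | ⟨h, h'⟩) hle
      · exact Or.inl (hle.trans_lt h)
      · subst h
        rcases hle.eq_or_lt with h2 | h2
        · exact Or.inr ⟨ang_inj C hx.symm hbk h2, h'⟩
        · exact Or.inl h2
    sg_mem := by
      intro x
      split_ifs
      · right
        exact hs
      · left; rfl }

section lane

variable (hbk : b ≠ k) {s : ℝ} (hs : s = 1 ∨ s = -1)

theorem lane_mem (x : Fin n) :
    x ∈ (lane C hbk s hs).B ↔ ang C b x < ang C b k ∨ (x = k ∧ s = 1) := Iff.rfl

theorem lane_sg : (lane C hbk s hs).sg k = s := by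
  classical
  simp [lane]

theorem lane_sg' {x : Fin n} (hx : x ≠ k) : (lane C hbk s hs).sg x = 0 := by
  classical
  simp [lane, hx]

theorem ang_neg {x : Fin n} : ang C b x < 0 ↔ (C.arm b x).up = true := by
  unfold ang
  have := Real.exp_pos (- ky C b x)
  split_ifs with h
  · constructor
    · intro _; exact h
    · intro _; linarith
  · constructor
    · intro h'; linarith
    · intro h'; exact absurd h' h

theorem ang_pos {x : Fin n} : 0 < ang C b x ↔ ¬ (C.arm b x).up = true := by
  unfold ang
  have := Real.exp_pos (- ky C b x)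
  split_ifs with h
  · constructor
    · intro h'; linarith
    · intro h'; exact absurd h h'
  · constructor
    · intro _; exact h
    · intro _; exact this

/-- all wrapped arms start in the page of the arm `k` -/
theorem lane_wr_up {x : Fin n} (hw : (lane C hbk s hs).wr x) :
    (C.arm b x).up = (C.arm b k).up := by
  unfold Slt.wr at hw
  rw [lane_mem] at hw
  by_cases h : (C.arm b x).up = true
  · have h1 := hw.1 h
    push Not at h1
    have h2 : ang C b k < 0 := h1.1.trans_lt (ang_neg.2 h)
    rw [h, ang_neg.1 h2]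
  · have h1 : ang C b x < ang C b k ∨ (x = k ∧ s = 1) := by
      by_contra hn
      exact h (hw.2 hn)
    rcases h1 with h1 | h1
    · have h2 : 0 < ang C b k := (ang_pos.2 h).trans h1
      have h3 := ang_pos.1 h2
      rw [Bool.not_eq_true] at h h3
      rw [h, h3]
    · rw [h1.1]

/-- the order of keys next to the lane -/
theorem lane_key {x : Fin n} (hx : x ≠ b) (hxk : x ≠ k) (hup : (C.arm b x).up = (C.arm b k).up) :
    ((lane C hbk s hs).wr x → ky C b k < ky C b x) ∧
    (¬ (lane C hbk s hs).wr x → ky C b x < ky C b k) := by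
  have hne : ang C b x ≠ ang C b k := fun h => hxk (ang_inj C hx.symm hbk h)
  have hne' : x = k ∧ s = 1 ↔ False := by tauto
  unfold Slt.wr
  rw [lane_mem, hne', or_false]
  by_cases h : (C.arm b x).up = true
  · have hk : (C.arm b k).up = true := by rw [← hup]; exact h
    have e : ang C b x < ang C b k ↔ ky C b x < ky C b k := by
      unfold ang
      rw [if_pos h, if_pos hk, neg_lt_neg_iff, Real.exp_lt_exp, neg_lt_neg_iff]
    have e' : ang C b k < ang C b x ↔ ky C b k < ky C b x := by
      unfold ang
      rw [if_pos h, if_pos hk, neg_lt_neg_iff, Real.exp_lt_exp, neg_lt_neg_iff]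
    constructor
    · intro h1
      have := h1.1 h
      exact e'.1 (lt_of_le_of_ne (not_lt.1 this) hne.symm)
    · intro h1
      rw [← e]
      by_contra h2
      exact h1 ⟨fun _ => h2, fun _ => h⟩
  · have hk : ¬ (C.arm b k).up = true := by rw [← hup]; exact h
    have e : ang C b x < ang C b k ↔ ky C b k < ky C b x := by
      unfold ang
      rw [if_neg h, if_neg hk, Real.exp_lt_exp, neg_lt_neg_iff]
    have e' : ang C b k < ang C b x ↔ ky C b x < ky C b k := by
      unfold ang
      rw [if_neg h, if_neg hk, Real.exp_lt_exp, neg_lt_neg_iff]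
    constructor
    · intro h1
      rw [← e]
      by_contra h2
      exact h (h1.2 h2)
    · intro h1
      rw [← e']
      apply lt_of_le_of_ne _ hne.symm
      rw [← not_lt]
      intro h2
      exact h1 ⟨fun h3 => absurd h3 h, fun h3 => absurd h2 h3⟩

/-- the shift of the first point of the arm `k` -/
theorem lane_st : (0 < (lane C hbk s hs).st k ∧ s * rt (C.arm b k) 0 = 1) ∨
    ((lane C hbk s hs).st k < 0 ∧ s * rt (C.arm b k) 0 = -1) := by
  have hir : ¬ ang C b k < ang C b k := lt_irrefl _
  have hwr : (lane C hbk s hs).wr k ↔ ((C.arm b k).up = true ↔ ¬ s = 1) := by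
    unfold Slt.wr
    rw [lane_mem]
    tauto
  have hr : rt (C.arm b k) 0 = if (C.arm b k).up then 1 else -1 := by
    unfold rt
    rw [Arm.page_zero]
  rw [hr]
  by_cases hw : (lane C hbk s hs).wr k
  · right
    refine ⟨Slt.st_neg _ hw, ?_⟩
    rw [hwr] at hw
    rcases hs with rfl | rfl
    · have : ¬ (C.arm b k).up = true := fun h => hw.1 h rfl
      rw [if_neg this]; norm_num
    · have : (C.arm b k).up = true := hw.2 (by norm_num)
      rw [if_pos this]; norm_num
  · left
    refine ⟨by rw [Slt.st_not _ hw]; exact one_pos, ?_⟩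
    rw [hwr] at hw
    rcases hs with rfl | rfl
    · have : (C.arm b k).up = true := by
        by_contra h
        apply hw
        constructor
        · intro h'; exact absurd h' h
        · intro h'; exact absurd rfl h'
      rw [if_pos this]; norm_num
    · have : ¬ (C.arm b k).up = true := by
        intro h
        apply hw
        constructor
        · intro _; norm_num
        · intro _; exact h
      rw [if_neg this]; norm_num

end lane

end Vale.Agent.P040.Slot
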