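import Vale.Agent.P040.H198.ArcDiag
import Vale.Agent.P040.H198.Chain

/-!
# The two remaining statements of the bridge from drawings to arc diagrams
-/

namespace Vale.Agent.P040.Topo

/-- **T2 (spine).** `V`: the vertices, `C`: the crossing points, `F`: the segments of a polygonal
drawing. Some homeomorphism of the plane takes `V` into the horizontal axis, no point of `C` to it,
and every segment of `F` to a curve which meets the axis in finitely many points. -/
def SpineStatement : Prop :=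
  ∀ (V C : Set Plane) (F : Finset (Plane × Plane)), V.Finite → V.Nontrivial → C.Finite →
    Disjoint V C → ∃ Φ : Plane ≃ₜ Plane, (∀ v ∈ V, (Φ v).2 = 0) ∧ (∀ c ∈ C, (Φ c).2 ≠ 0) ∧
      ∀ e ∈ F, {w | w ∈ segment ℝ e.1 e.2 ∧ (Φ w).2 = 0}.Finite

/-- **T3 (reading off).** A drawing with all vertices on the horizontal axis, with all edges
meeting the axis in finitely many points, whose crossing points (the set `C`) are off the axis,
has an arc diagram with at most `C.ncard` interleaving pairs. -/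
def ReadStatement : Prop :=
  ∀ (m n : ℕ) (S : Fin m → Fin n → Set Plane) (leaf : Fin m → ℝ) (ctr : Fin n → ℝ)
    (C : Set Plane), Function.Injective leaf → Function.Injective ctr →
    (∀ x b, leaf x ≠ ctr b) →
    (∀ x b, IsArc (S x b) (ctr b, 0) (leaf x, 0)) →
    (∀ x b, {w | w ∈ S x b ∧ w.2 = 0}.Finite) →
    C.Finite → (∀ c ∈ C, c.2 ≠ 0) →
    (∀ x y b, x ≠ y → ∀ w ∈ S x b, w ∈ S y b → w = (ctr b, 0)) →
    (∀ x b k, b ≠ k → ∀ w ∈ S x b, w ∈ S x k → w = (leaf x, 0)) →
    (∀ x y b k, x ≠ y → b ≠ k → ∀ w ∈ S x b, w ∈ S y k → w ∈ C) →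
    (∀ c ∈ C, ∀ x y b k x' y' b' k', b < k → b' < k' → c ∈ S x b → c ∈ S y k → c ∈ S x' b' →
      c ∈ S y' k' → x = x' ∧ b = b' ∧ y = y' ∧ k = k') →
    ∃ A : ArcDiagram m n, A.leaf = leaf ∧ A.ctr = ctr ∧ A.total ≤ C.ncard

end Vale.Agent.P040.Topo
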